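import Vale.Agent.P216K.Line
import Vale.Agent.P216B.Sp
import Vale.Agent.P216CP.All
import Vale.Agent.P216CP.Uniq

/-! # Complete manifolds with `sec ≥ 0` as metric spaces -/

open scoped Manifold ContDiff Topology ENNReal
open Set Filter

noncomputable section

namespace Vale.Agent.P216K

open Vale.Agent.P216R Vale.Agent.P216CP

variable {E : Type} [NormedAddCommGroup E] [NormedSpace ℝ E] [FiniteDimensional ℝ E]
  {M : Type} [TopologicalSpace M] [ChartedSpace E M] [IsManifold 𝓘(ℝ, E) ∞ M]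
  {g : Ten E M} {U : Set M} {h : MS g U} {c : ℝ → M} {I : Set ℝ} {L : ℝ}

/-- distance realising curves in the manifold -/
def EIso (g : Ten E M) (U : Set M) (c : ℝ → M) (I : Set ℝ) : Prop :=
  ∀ s ∈ I, ∀ t ∈ I, ed g U (c s) (c t) = ENNReal.ofReal |s - t|

omit [FiniteDimensional ℝ E] [IsManifold 𝓘(ℝ, E) ∞ M] in
lemma EIso.mem (H : EIso g U c I) {s : ℝ} (hs : s ∈ I) : c s ∈ U :=
  (mem_of_ed_ne (g := g) (y := c s) (by rw [H s hs s hs]; exact ENNReal.ofReal_ne_top)).1

lemma Iso.eIso {c : ℝ → Sp h} (H : Iso c I) : EIso g U (fun s => (c s).val) I := fun s hs t ht => by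
  rw [← H s hs t ht, ← Sp.edist_eq, edist_dist]

open Classical in
/-- a point of the manifold as a point of the metric space -/
def up (o : Sp h) (x : M) : Sp h := if hx : x ∈ U then Sp.mk h x hx else o

omit [FiniteDimensional ℝ E] [IsManifold 𝓘(ℝ, E) ∞ M] in
lemma up_val (o : Sp h) {x : M} (hx : x ∈ U) : (up o x).val = x := by
  rw [up, dif_pos hx]; rfl

omit [FiniteDimensional ℝ E] [IsManifold 𝓘(ℝ, E) ∞ M] in
lemma up_self (o p : Sp h) : up o p.val = p := Sp.ext (up_val o p.prop)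

lemma EIso.iso (H : EIso g U c I) (o : Sp h) : Iso (fun s => up o (c s)) I := fun s hs t ht => by
  rw [Sp.dist_eq, up_val o (H.mem hs), up_val o (H.mem ht), dd_eq_of (H s hs t ht) (abs_nonneg _)]

lemma EIso.exists_geo (hg : Met g U) (hH : Hs U) (H : EIso g U c (Icc 0 L)) (h0 : 0 < L) :
    ∃ γ s, IsOpen s ∧ s.OrdConnected ∧ Icc 0 L ⊆ s ∧ IsGeo g U γ s ∧ EqOn γ c (Icc 0 L) ∧
      ∀ t ∈ s, spd g γ t = 1 ∧ ed g U (c 0) (γ t) ≤ ENNReal.ofReal (L + 1) := by
  obtain ⟨v, h1, h2, h3⟩ := exists_ray_of_iso hg hH h0 H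
  refine ⟨_, Life g U (c 0) v ∩ Ioo (-1) (L + 1), isOpen_Life.inter isOpen_Ioo,
    ordConnected_Life.inter ordConnected_Ioo, fun t ht => ⟨Icc_subset_Life h2 ht,
      by constructor <;> linarith [ht.1, ht.2]⟩, (isGeo_ray hg hH).mono inter_subset_left, h3,
    fun t ht => ⟨by rw [spd_ray hg hH ht.1, h1, Real.sqrt_one], (ed_ray_le' hg hH ht.1).trans ?_⟩⟩
  rw [h1, Real.sqrt_one, mul_one]
  exact ENNReal.ofReal_le_ofReal (abs_le.2 ⟨by linarith [ht.2.1], ht.2.2.le⟩)

theorem nn_sp [Nontrivial E] (h : MS g U) (hc : Cpl g U) (h0 : ∀ y ∈ U, SecGe g y 0) :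
    NN (Sp h) where
  seg x y := by
    obtain ⟨γ, h1, h2, h3⟩ := exists_minGeo_cpl h.met h.hs hc (Sp.ne_top x y)
    rw [← Sp.dist_eq] at h1 h3
    exact ⟨fun s => up x (γ s), by simp only [h2, up_self], by simp only [h3, up_self],
      EIso.iso h1.min x⟩
  conc p c L H := by
    rcases le_or_gt L 0 with hL | hL
    · refine ⟨convex_Icc _ _, fun x hx y hy a b _ _ hab => ?_⟩
      obtain rfl : x = y := by linarith [hx.1, hx.2, hy.1, hy.2]
      simp only [smul_eq_mul, ← add_mul, hab, one_mul, le_refl]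
    obtain ⟨γ, s, h1, h2, h3, h4, h5, h6⟩ := H.eIso.exists_geo h.met h.hs hL
    have hd := dist_nonneg (x := p) (y := c 0)
    refine ((top0 E M g U p.val (dist p (c 0) + L + 2) γ s h.met h.hs (fun r _ => hc _ p.prop r)
      (fun y hy => h0 y (mem_of_bl hy).2) h1 h2 h4 (fun t ht => (h6 t ht).1) fun t ht => ?_).1.subset
      h3 (convex_Icc _ _)).congr fun t ht => ?_
    · refine (ed_le_add (a := dist p (c 0)) ?_ (h6 t ht).2 hd (by linarith)).trans_lt
        ((ENNReal.ofReal_lt_ofReal_iff (by linarith)).2 (by linarith))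
      rw [← Sp.edist_eq, edist_dist]
    · simp only [h5 ht, Sp.dist_eq]

end Vale.Agent.P216K
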