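import Vale.Agent.P216DC.Defs

/-! # Locally split ancient solutions: definitions and block statements -/

open scoped Manifold ContDiff Topology ENNReal
open Set MeasureTheory

noncomputable section

namespace Vale.Agent.P216K

open Vale.Agent.P216R Vale.Agent.P216DC

variable {M : Type} [TopologicalSpace M] [ChartedSpace E3 M]

/-- the differential of a function at `x`, applied to `v` -/
def df (b : M → ℝ) (x : M) (v : E3) : ℝ := mfderiv 𝓘(ℝ, E3) 𝓘(ℝ, ℝ) b x v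

/-- local splitting, by the same function for all times in `I` -/
def LSp (g : ℝ → Ten E3 M) (I : Set ℝ) (U : Set M) : Prop :=
  ∀ x ∈ U, ∃ V ⊆ U, IsOpen V ∧ x ∈ V ∧ ∃ b, ∀ t ∈ I, Spl (g t) V b

/-- the soliton equation on a locally split manifold -/
def SolEq (g : Ten E3 M) (U : Set M) (L : M → ℝ) (r : ℝ) : Prop :=
  ∀ V ⊆ U, IsOpen V → ∀ b, Spl g V b → ∀ x ∈ V, gam g L b x = 0 ∧
    ∀ v w, hess g L x v w = (r - Real.exp (L x)) / 2 * (g x v w - df b x v * df b x w)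

/-- the potential of a closed locally split ancient solution -/
def K1A : Prop :=
  ∀ (M : Type) [TopologicalSpace M] [ChartedSpace E3 M] [IsManifold 𝓘(ℝ, E3) ∞ M]
    (g : ℝ → Ten E3 M) (U : Set M) (C : ℝ), IsCompact U → Hs U → IsPreconnected U →
    RF g (Iic 0) U → LSp g (Iic 0) U → (∀ t ≤ 0, ∀ x ∈ U, 0 < Sc (g t) x) →
    (∀ t ≤ 0, ∀ x ∈ U, ∀ y ∈ U, Sc (g t) x ≤ C * Sc (g t) y) →
    (∀ t ≤ 0, ∀ x ∈ U, RmB (g t) 1 x (C * √(Sc (g t) x) ^ 3) ∧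
      RmB (g t) 2 x (C * Sc (g t) x ^ 2)) →
    ∃ r, SolEq (g 0) U (fun x => Real.log (Sc (g 0) x)) r

/-- rigidity of the soliton equation -/
def K1B : Prop :=
  ∀ (M : Type) [TopologicalSpace M] [ChartedSpace E3 M] [IsManifold 𝓘(ℝ, E3) ∞ M]
    (g : Ten E3 M) (U : Set M) (L : M → ℝ) (r : ℝ), IsCompact U → Hs U → IsPreconnected U →
    Met g U → LSp (fun _ => g) univ U → ContMDiffOn 𝓘(ℝ, E3) 𝓘(ℝ, ℝ) ∞ L U → SolEq g U L r →
    ∀ x ∈ U, ∀ y ∈ U, L x = L y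

/-- closed locally split ancient solutions of type one are round -/
def RND2 : Prop :=
  ∀ (M : Type) [TopologicalSpace M] [ChartedSpace E3 M] [IsManifold 𝓘(ℝ, E3) ∞ M]
    (g : ℝ → Ten E3 M) (U : Set M) (C : ℝ), IsCompact U → Hs U → IsPreconnected U →
    RF g (Iic 0) U → LSp g (Iic 0) U → (∀ t ≤ 0, ∀ x ∈ U, 0 < Sc (g t) x) →
    (∀ t ≤ 0, ∀ x ∈ U, ∀ y ∈ U, Sc (g t) x ≤ C * Sc (g t) y) →
    (∀ t ≤ 0, ∀ x ∈ U, RmB (g t) 1 x (C * √(Sc (g t) x) ^ 3) ∧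
      RmB (g t) 2 x (C * Sc (g t) x ^ 2)) →
    ∀ t ≤ 0, ∀ x ∈ U, ∀ y ∈ U, Sc (g t) x = Sc (g t) y

end Vale.Agent.P216K
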