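import Vale.Agent.P216K.Blow

/-! # Bounded ancient solutions with Euclidean volume growth are flat -/

open scoped Manifold ContDiff Topology ENNReal
open Set Filter

set_option maxSynthPendingDepth 3

noncomputable section

namespace Vale.Agent.P216K

open Vale.Agent.P216R Vale.Agent.P216CP Vale.Agent.P216DC Vale.Agent.P216U

variable {M : Type} [TopologicalSpace M] [ChartedSpace E3 M] [IsManifold 𝓘(ℝ, E3) ∞ M]
  {g : ℝ → Ten E3 M} {U : Set M} {σ : ℝ → M} {b : M → ℝ} {w : ℝ} {x y : M}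

lemma Axis.dl_le (hA : Axis g U σ b) (h : Anc g U) (hx : x ∈ U) (hy : y ∈ U) :
    dl (g 0) U σ b x ≤ dd (g 0) U x y + dl (g 0) U σ b y :=
  (hA.min x hx (b y)).trans (by
    have hm := anc_ms h le_rfl
    simpa only [Sp.dist_eq, Sp.val_mk, dl] using
      dist_triangle (Sp.mk hm x hx) (Sp.mk hm y hy) (Sp.mk hm _ (hA.mem (b y))))

omit [IsManifold 𝓘(ℝ, E3) ∞ M] in
lemma Axis.zero (hA : Axis g U σ b) (hy : y ∈ U) : ∃ y' ∈ U, b y' = 0 ∧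
    dl (g 0) U σ b y' = dl (g 0) U σ b y ∧ dd (g 0) U (σ 0) y' = dl (g 0) U σ b y ∧
    Sc (g 0) y' = Sc (g 0) y := by
  obtain ⟨y', h1, h2, h3, h4⟩ := hA.tr y hy _ (hA.mem 0)
  rw [hA.base] at h2
  exact ⟨y', h1, h2, h3, by rw [← h3, dl, h2, dd, dd, ed_comm], h4⟩

lemma Axis.pick (hA : Axis g U σ b) (h : Anc g U) {B : ℝ} (hB : ∀ y ∈ U, Sc (g 0) y ≤ B)
    (hu : ∀ A, ∃ y ∈ U, A < Sc (g 0) y * dl (g 0) U σ b y ^ 2) {N : ℝ} (hN : 0 < N) :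
    ∃ y ∈ U, ∃ ρ > 0, b y = 0 ∧ Sc (g 0) y * ρ ^ 2 = 1 ∧ 2 * (N * ρ) ≤ dd (g 0) U (σ 0) y ∧
      ∀ z ∈ bl (g 0) U y (N * ρ), Sc (g 0) z * ρ ^ 2 ≤ 4 := by
  obtain ⟨y, y1, y2⟩ := hu ((4 * N) ^ 2)
  have y3 : 0 ≤ dl (g 0) U σ b y := ENNReal.toReal_nonneg
  have y4 : 0 < Sc (g 0) y := pos_of_mul_pos_left ((sq_nonneg _).trans_lt y2)
    (sq_nonneg _)
  obtain ⟨z, z1, z2, z3, z4⟩ := P216BF.pick_space
    (d := fun u v => dl (g 0) U σ b u - dl (g 0) U σ b v) (Q := Sc (g 0)) (A := N) (B := B) y1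
    (sub_self _).le (fun _ _ _ _ => by linarith) hN.le y4 fun z hz _ => hB z hz
  obtain ⟨y', k1, k2, k3, k4, k5⟩ := hA.zero z1
  have z5 := y4.trans_le z3
  have z6 := Real.sqrt_pos.2 z5
  have z7 : Sc (g 0) z * (√(Sc (g 0) z))⁻¹ ^ 2 = 1 := by
    rw [inv_pow, Real.sq_sqrt z5.le, mul_inv_cancel₀ z5.ne']
  have y5 : 4 * N < √(Sc (g 0) y) * dl (g 0) U σ b y := by
    refine lt_of_pow_lt_pow_left₀ 2 (by positivity) ?_
    rwa [mul_pow √_, Real.sq_sqrt y4.le]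
  have y6 : 2 * (N / √(Sc (g 0) y)) ≤ dl (g 0) U σ b y := by
    rw [← mul_div_assoc, div_le_iff₀ (Real.sqrt_pos.2 y4)]
    linarith
  refine ⟨y', k1, _, inv_pos.2 z6, k2, k5 ▸ z7, ?_, fun v hv => ?_⟩
  · rw [k4, ← div_eq_mul_inv]
    linarith
  · have v1 := hA.dl_le h k1 (mem_of_bl hv).2
    have v2 := dd_lt_of_bl hv
    have v3 := z4 v (mem_of_bl hv).2 (by rw [div_eq_mul_inv]; linarith)
    calc _ ≤ 4 * Sc (g 0) z * (√(Sc (g 0) z))⁻¹ ^ 2 := by gcongr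
      _ = 4 := by rw [mul_assoc, z7, mul_one]

variable [MeasurableSpace M] [BorelSpace M]

theorem blow (h0 : LIM0) (h1 : LIM1) (hH : HARN) (hE : Evg w g U) (hA : Axis g U σ b)
    (hu : ∀ A, ∃ y ∈ U, A < Sc (g 0) y * dl (g 0) U σ b y ^ 2) :
    ∃ (X : Type) (_ : TopologicalSpace X) (_ : ChartedSpace E3 X) (_ : IsManifold 𝓘(ℝ, E3) ∞ X)
      (_ : MeasurableSpace X) (_ : BorelSpace X) (G : ℝ → Ten E3 X) (c : ℝ → X),
      Evg w G univ ∧ EIso (G 0) univ c univ ∧ Sc (G 0) (c 0) = 1 ∧ (Prl (g 0) U b →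
        ∃ τ, EIso (G 0) univ τ univ ∧ c 0 = τ 0 ∧
          ∀ s ≤ 0, ∀ t, dd (G 0) univ (c s) (τ t) ^ 2 = s ^ 2 + t ^ 2) := by
  obtain ⟨B, hB⟩ := hE.bdd
  choose y y1 ρ ρ0 y2 y3 y4 y5 using fun n : ℕ =>
    hA.pick hE.toAnc (hB 0 le_rfl) hu (Nat.cast_add_one_pos n)
  let l := hyperfilter ℕ
  have n1 : Tendsto (fun n : ℕ => (n : ℝ) + 1) l atTop :=
    (tendsto_atTop_add_const_right _ 1 tendsto_natCast_atTop_atTop).mono_left
      Nat.hyperfilter_le_atTop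
  have hE' : ∀ n, Evg w (resc g (ρ n ^ 2)⁻¹ 0) U := fun n => hE.resc (by have := ρ0 n; positivity)
  obtain ⟨L, G, g1, g2, g3, g4⟩ := exists_lim (M := fun _ => M) (C := 4) (x := y) h0 h1 hH l hE' y1
    (ρ := ⊤) (by simp) fun s _ _ => (n1.eventually_ge_atTop s).mono fun n hn z hz => by
      rw [sc_resc (ρ0 n)]
      rw [bl_resc (ρ0 n)] at hz
      exact y5 n z (bl_mono (mul_le_mul_of_nonneg_right hn (ρ0 n).le) hz)
  have hm := anc_ms hE.toAnc le_rfl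
  have hX := nn_sp hm (hE.cpl 0 le_rfl) (hE.sec 0 le_rfl)
  have := Sp.proper hm (hE.cpl 0 le_rfl)
  let o := Sp.mk hm _ (hA.mem 0)
  let Y := fun n => Sp.mk hm _ (y1 n)
  have hU : ∀ᶠ n in (l : Filter ℕ), Hs U := .of_forall fun _ => hE.hs
  have hY : ∀ n, dist o (Y n) = dd (g 0) U (σ 0) (y n) := fun n => Sp.dist_eq _ _
  have e1 : ∀ n (u v : Sp hm), dd (resc g (ρ n ^ 2)⁻¹ 0 0) U u.val v.val = dist u v / ρ n :=
    fun n u v => by rw [dd_resc (ρ0 n), Sp.dist_eq]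
  have e2 : ∀ γ : ℕ → ℝ → Sp hm, (∀ n, γ n 0 = Y n) →
      (∀ s t, Tendsto (fun n => dist (γ n s) (γ n t) / ρ n) l (𝓝 |s - t|)) →
      ∃ c : ℝ → L.X, EIso L.h univ c univ ∧ c 0 = L.o ∧
        ∀ s, Ap l L.F (fun n => (γ n s).val) (c s) := fun γ i1 i2 => by
    have i3 : ∀ s t, Tendsto (fun n => ed (resc g (ρ n ^ 2)⁻¹ 0 0) U (γ n s).val (γ n t).val) l
        (𝓝 (ENNReal.ofReal |s - t|)) := fun s t => (ENNReal.tendsto_ofReal (i2 s t)).congr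
      fun n => by rw [← e1, ← ed_eq_dd ((hE' n).toAnc.ed_ne le_rfl (Sp.prop _) (Sp.prop _))]
    obtain ⟨c, c1, c2⟩ := L.exists_curve hU (J := univ) (γ := fun n s => (γ n s).val)
      (fun s _ => ⟨ENNReal.ofReal (|0 - s| + 1), ENNReal.ofReal_lt_top,
        ((i3 0 s).eventually_le_const ((ENNReal.ofReal_lt_ofReal_iff (by positivity)).2
          (lt_add_one _))).mono fun n hn => by rwa [i1] at hn⟩) fun s _ t _ => i3 s t
    exact ⟨c, c2, L.conv.ap_unique (hs_of_t2 _) (mem_univ _) (mem_univ _)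
      ((c1 0 trivial).congr (.of_forall fun n => by rw [i1]; rfl)) L.ap, fun s => c1 s trivial⟩
  have B0 : 0 < B := (pos_of_mul_pos_left (one_pos.trans_eq (y3 0).symm)
    (sq_nonneg _)).trans_le (hB 0 le_rfl _ (y1 0))
  have e3 : ∀ n, 1 ≤ √B * ρ n := fun n => by
    refine le_of_pow_le_pow_left₀ two_ne_zero (mul_nonneg (Real.sqrt_nonneg _) (ρ0 n).le) ?_
    rw [mul_pow, Real.sq_sqrt B0.le, one_pow, ← y3 n]
    exact mul_le_mul_of_nonneg_right (hB 0 le_rfl _ (y1 n)) (sq_nonneg _)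
  obtain ⟨γ, γ1, γ2, γ3⟩ := hX.new_line l (q := o) (y := Y) (ρ := ρ)
    (tendsto_atTop_mono (fun n => by
      rw [hY, div_le_iff₀ (Real.sqrt_pos.2 B0)]
      nlinarith [y4 n, e3 n, ρ0 n, Real.sqrt_nonneg B, Nat.cast_add_one_pos (α := ℝ) n,
        mul_le_mul_of_nonneg_right (y4 n) (Real.sqrt_nonneg B)])
      (n1.atTop_div_const (Real.sqrt_pos.2 B0))) ρ0
    (squeeze_zero (fun n => div_nonneg (ρ0 n).le dist_nonneg) (fun n => by
      have i1 := mul_pos (Nat.cast_add_one_pos (α := ℝ) n) (ρ0 n)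
      rw [Pi.inv_apply, hY, div_le_iff₀ (by linarith [y4 n]), inv_mul_eq_div,
        le_div_iff₀ (Nat.cast_add_one_pos n)]
      linarith [y4 n]) n1.inv_tendsto_atTop)
  obtain ⟨c, c1, c2, c3⟩ := e2 γ γ1 γ2
  refine ⟨L.X, inferInstance, inferInstance, inferInstance, inferInstance, inferInstance, G, c,
    evg_lim hE' g1 g2 g3, g2 ▸ c1, ?_, fun hP => ?_⟩
  · rw [c2]
    exact tendsto_nhds_unique g4 (tendsto_const_nhds.congr fun n => by rw [sc_resc (ρ0 n), y3])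
  choose τ τ1 τ2 τ3 using fun n => hP _ (y1 n)
  obtain ⟨k, k1, k2, k3⟩ := e2 (fun n t => up o (τ n (ρ n * t)))
    (fun n => by simp only [mul_zero, τ1]; exact up_self o (Y n)) fun s t =>
      tendsto_const_nhds.congr fun n => by
        rw [(τ2 n).iso o _ trivial _ trivial, ← mul_sub, abs_mul, abs_of_pos (ρ0 n),
          mul_div_cancel_left₀ _ (ρ0 n).ne']
  refine ⟨k, g2 ▸ k1, c2.trans k2.symm, fun s hs t => ?_⟩
  rw [g2]
  refine tendsto_nhds_unique ((L.tendsto_dd hU (c3 s) (k3 t) le_top).pow 2) ?_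
  have i1 := ((γ2 s 0).pow 2).add_const (t ^ 2)
  rw [sub_zero, sq_abs] at i1
  refine i1.congr' ((γ3 s hs).mono fun n ⟨e, i2, i3, i4, i5, i6⟩ => ?_)
  have i7 := hA.btw 0 le_rfl _ _ _ i2.eIso i5
  rw [i3, i4, ← i6] at i7
  have i8 : b (γ n s).val - b (y n) = 0 := abs_nonpos_iff.1 (i7.trans_eq (by
    simp only [o, Y, Sp.val_mk, hA.base, y2, sub_self, abs_zero]))
  have i9 := τ3 n _ (γ n s).prop (ρ n * t)
  have := (ρ0 n).ne'
  simp only [dd_resc (ρ0 n), up_val o ((τ2 n).mem (mem_univ _)), div_pow, i9, i8, γ1, Sp.dist_eq,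
    Y, Sp.val_mk]
  field_simp
  ring

theorem unbounded (h0 : LIM0) (h1 : LIM1) (hH : HARN) (h4 : S4) (hF : FAR) (hE : Evg w g U)
    (hA : Axis g U σ b) (hx : x ∈ U) (hs : Sc (g 0) x ≠ 0) (A : ℝ) :
    ∃ y ∈ U, A < Sc (g 0) y * dl (g 0) U σ b y ^ 2 := by
  by_contra! hn
  obtain ⟨ε, ε0, hε⟩ := hF M w A g U σ b x hE hA hx
    ((hE.toAnc.sc_nonneg le_rfl hx).lt_of_ne' hs) hn
  choose z z1 z2 z3 using fun n : ℕ => hε (n + 1)
  choose y y1 _ y3 y4 y5 using fun n => hA.zero (z1 n)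
  refine cone_false (A := 4 * A) h0 h1 hH h4 hE (hA.mem 0) y1 y4
    (fun n => (lt_add_one _).trans_le (z2 n)) ε0 (fun n => (y5 n).symm ▸ z3 n) fun n v hv => ?_
  have v0 := (mem_of_bl hv).2
  have v1 := hA.dl_le hE.toAnc (y1 n) v0
  have v2 := dd_lt_of_bl hv
  have v3 : 0 ≤ dl (g 0) U σ b (z n) := ENNReal.toReal_nonneg
  calc _ ≤ Sc (g 0) v * (2 * dl (g 0) U σ b v) ^ 2 := by
        have := hE.toAnc.sc_nonneg le_rfl v0
        gcongr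
        linarith [y3 n]
    _ ≤ 4 * A := by linarith [hn v v0]

theorem flat_of_line (h0 : LIM0) (h1 : LIM1) (hH : HARN) (h2 : S2) (h4 : S4) (hF : FAR)
    (hE : Evg w g U) (H : EIso (g 0) U σ univ) (hx : x ∈ U) : Sc (g 0) x = 0 := by
  by_contra hs
  obtain ⟨b, hA, hP⟩ := axis_line h2 hE.toAnc H
  obtain ⟨X, _, _, _, _, _, G, c, k1, k2, k3, k4⟩ :=
    blow h0 h1 hH hE hA (unbounded h0 h1 hH h4 hF hE hA hx hs)
  obtain ⟨τ, k5, k6, k7⟩ := k4 hP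
  have := two_lines (anc_ms k1.toAnc le_rfl) (k1.cpl 0 le_rfl) (k1.sec 0 le_rfl) k5 k2 k6 k7
  rw [← k6, k3] at this
  exact one_ne_zero this

theorem avr0_of (h0 : LIM0) (h1 : LIM1) (hH : HARN) (h2 : S2) (h4 : S4) (hF : FAR) : AVR0 := by
  intro M _ _ _ _ _ g U x w h hB hx hw hv
  by_contra hs
  have hE : Evg (w / 8) g U := ⟨h, hB, by positivity, av_of h hx hw hv⟩
  obtain ⟨X, _, _, _, _, _, G, c, k1, k2, k3, -⟩ := blow h0 h1 hH hE (axis_const hx)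
    (unbounded h0 h1 hH h4 hF hE (axis_const hx) hx hs)
  exact one_ne_zero (k3.symm.trans (flat_of_line h0 h1 hH h2 h4 hF k1 k2 (mem_univ _)))

end Vale.Agent.P216K
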