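import Vale.Agent.P216DC.LimS
import Vale.Agent.P216DC.Stm
import Vale.Agent.P216DC.Stm2

/-! # Ancient solutions with Euclidean volume growth: statements -/

open scoped Manifold ContDiff Topology ENNReal
open Set MeasureTheory

noncomputable section

namespace Vale.Agent.P216K

open Vale.Agent.P216R Vale.Agent.P216DC

/-- a splitting persists backwards in time -/
def S2 : Prop :=
  ∀ (M : Type) [TopologicalSpace M] [ChartedSpace E3 M] [IsManifold 𝓘(ℝ, E3) ∞ M]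
    (g : ℝ → Ten E3 M) (U : Set M) (b : M → ℝ), Anc g U → Spl (g 0) U b → ∀ t ≤ 0, Spl (g t) U b

/-- a piece of a cone in the final time slice of a flow with `sec ≥ 0` is flat -/
def S4 : Prop :=
  ∀ (M : Type) [TopologicalSpace M] [ChartedSpace E3 M] [IsManifold 𝓘(ℝ, E3) ∞ M]
    (g : ℝ → Ten E3 M) (U : Set M) (u : M → ℝ) (τ : ℝ), 0 < τ → RF g (Icc (-τ) 0) U → Hs U →
    (∀ t ∈ Icc (-τ) 0, ∀ x ∈ U, SecGe (g t) x 0) → ContMDiffOn 𝓘(ℝ, E3) 𝓘(ℝ, ℝ) ∞ u U →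
    (∀ x ∈ U, hess (g 0) u x = g 0 x) → ∀ x ∈ U, Sc (g 0) x = 0

section defs

variable {M : Type} [TopologicalSpace M] [ChartedSpace E3 M]

/-- the distance from the axis -/
def dl (g : Ten E3 M) (U : Set M) (σ : ℝ → M) (b : M → ℝ) (x : M) : ℝ := dd g U x (σ (b x))

/-- an axis: a point (`σ` constant, `b = 0`) or a line with its Busemann function -/
structure Axis (g : ℝ → Ten E3 M) (U : Set M) (σ : ℝ → M) (b : M → ℝ) : Prop where
  mem : ∀ s, σ s ∈ U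
  base : b (σ 0) = 0
  min : ∀ x ∈ U, ∀ s, dl (g 0) U σ b x ≤ dd (g 0) U x (σ s)
  le : ∀ x ∈ U, ∀ s, dd (g 0) U x (σ s) ≤ dl (g 0) U σ b x + |b x - s|
  tr : ∀ y ∈ U, ∀ z ∈ U, ∃ y' ∈ U, b y' = b z ∧ dl (g 0) U σ b y' = dl (g 0) U σ b y ∧
    Sc (g 0) y' = Sc (g 0) y
  lip : ∀ t ≤ 0, ∀ x ∈ U, ∀ y ∈ U, |b x - b y| ≤ dd (g t) U x y
  btw : ∀ t ≤ 0, ∀ (c : ℝ → M) (L s : ℝ), (∀ a ∈ Icc 0 L, ∀ a' ∈ Icc 0 L,
    ed (g t) U (c a) (c a') = ENNReal.ofReal |a - a'|) → s ∈ Icc 0 L →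
    |b (c s) - b (c 0)| ≤ |b (c L) - b (c 0)|

variable [MeasurableSpace M]

/-- Euclidean volume growth about all points -/
def AV (w : ℝ) (g : Ten E3 M) (U : Set M) : Prop := ∀ y ∈ U, ∀ r > 0, Vl w g U y r

/-- a bounded ancient solution with Euclidean volume growth -/
structure Evg (w : ℝ) (g : ℝ → Ten E3 M) (U : Set M) : Prop extends Anc g U where
  bdd : Bdd g U
  pos : 0 < w
  av : AV w (g 0) U

end defs

/-- quadratic curvature decay away from the axis is attained -/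
def FAR : Prop :=
  ∀ (M : Type) [TopologicalSpace M] [ChartedSpace E3 M] [IsManifold 𝓘(ℝ, E3) ∞ M]
    [MeasurableSpace M] [BorelSpace M] (w A : ℝ) (g : ℝ → Ten E3 M) (U : Set M) (σ : ℝ → M)
    (b : M → ℝ) (x : M), Evg w g U → Axis g U σ b → x ∈ U → 0 < Sc (g 0) x →
    (∀ y ∈ U, Sc (g 0) y * dl (g 0) U σ b y ^ 2 ≤ A) →
    ∃ ε > 0, ∀ D, ∃ y ∈ U, D ≤ dl (g 0) U σ b y ∧ ε ≤ Sc (g 0) y * dl (g 0) U σ b y ^ 2

end Vale.Agent.P216K
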