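import Vale.Agent.P216K.Avr
import Vale.Agent.P216FR.Far
import Vale.Agent.P216MP.Exp
import Vale.Agent.P216H.Trace
import Vale.Agent.P216L.Dist
import Vale.Agent.P216DC.Kcn

/-! # The results about ancient solutions without hypotheses -/

namespace Vale.Agent.P216K

open Vale.Agent.P216DC

theorem avr0 : AVR0 := avr0_of cpt0 (lim1 P216D.shi) P216H.harn P216MP.s2K P216MP.s4K
  (P216FR.far P216H.harn P216KV.rt P216L.dist)

theorem bl_all : BL := bl_avr avr0

theorem th : TH := th_avr avr0 P216H.harn

theorem uni : UNI := uni_avr avr0 P216H.harn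

theorem rnd : RND := rnd_uni uni

theorem kcn_all : P216FA.KCN := kcn avr0 P216H.harn

end Vale.Agent.P216K
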