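import Vale.Agent.P216K.Spl
import Vale.Agent.P216DC.LimF
import Vale.Agent.P216DC.LimV
import Vale.Agent.P216U.Dist
import Vale.Agent.P216BG.Mcp

/-! # Limits of ancient solutions with Euclidean volume growth; the cone at infinity -/

open scoped Manifold ContDiff Topology ENNReal
open Set Filter

set_option maxSynthPendingDepth 3

noncomputable section

namespace Vale.Agent.P216K

open Vale.Agent.P216R Vale.Agent.P216CP Vale.Agent.P216DC Vale.Agent.P216U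

section seq

variable {ι : Type} {M : ι → Type} [∀ n, TopologicalSpace (M n)] [∀ n, ChartedSpace E3 (M n)]
  [∀ n, IsManifold 𝓘(ℝ, E3) ∞ (M n)] [∀ n, MeasurableSpace (M n)] [∀ n, BorelSpace (M n)]
  {U : ∀ n, Set (M n)} {g : ∀ n, ℝ → Ten E3 (M n)} {x : ∀ n, M n} {w C : ℝ} {ρ : ℝ≥0∞}

theorem exists_lim (h0 : LIM0) (h1 : LIM1) (hH : HARN) (l : Ultrafilter ι)
    (hE : ∀ n, Evg w (g n) (U n)) (hx : ∀ n, x n ∈ U n) (hρ : 0 < ρ)
    (hC : ∀ r > 0, ENNReal.ofReal r < ρ → ∀ᶠ n in (l : Filter ι),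
      ∀ z ∈ bl (g n 0) (U n) (x n) r, Sc (g n 0) z ≤ C) :
    ∃ (L : Lim l U (fun n => g n 0) x ρ) (G : ℝ → Ten E3 L.X), FL L G (Iic 0) univ ∧ G 0 = L.h ∧
      (∀ t ≤ 0, ∀ p, SecGe (G t) p 0 ∧ Sc (G t) p ≤ C) ∧
      Tendsto (fun n => Sc (g n 0) (x n)) l (𝓝 (Sc (G 0) L.o)) := by
  have hC' : ∀ r > 0, ENNReal.ofReal r < ρ → ∀ᶠ n in (l : Filter ι), ∀ s ≤ 0,
      ∀ z ∈ bl (g n 0) (U n) (x n) r, Sc (g n s) z ≤ C := fun r hr hρ =>
    (hC r hr hρ).mono fun n hn s hs z hz => ((hH _ _ _ (hE n).toAnc (hE n).bdd z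
      (mem_of_bl hz).2).1 hs self_mem_Iic hs).trans (hn z hz)
  have hP : ∀ r > 0, ENNReal.ofReal r < ρ → ∀ τ, EvP l U g x r τ := fun r hr hρ τ =>
    ⟨C, (hC' r hr hρ).mono fun n hn => ⟨(hE n).toAnc.cpt le_rfl (hx n) r,
      (hE n).toAnc.parB le_rfl hn τ⟩⟩
  obtain ⟨s, s1, s2, s3⟩ := exists_ofReal hρ
  obtain ⟨L, G, k1, k2⟩ := exists_fl h0 h1 ⟨fun n => (hE n).toAnc.met le_rfl, fun n => (hE n).hs,
    hx, fun r hr hρ => ⟨1, one_pos, hP r hr hρ 1⟩, w, (hE (l.nonempty_of_mem univ_mem).some).pos,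
    s, s1, s3, .of_forall fun n => (hE n).av _ (hx n) s s1⟩ bk_Iic fun r hr hρ τ _ _ => hP r hr hρ τ
  refine ⟨L, G, k1, k2, fun t ht p => ?_,
    k1.sc_base bk_Iic self_mem_Iic (subset_univ _) s1 (hP s s1 s3 1) (by norm_num)⟩
  obtain ⟨r, r1, r2, r3⟩ := lim_mem L p
  exact ⟨k1.sec bk_Iic ht (subset_univ _) r3 (hP r r1 r2 (-t)) (by linarith) fun ε hε =>
      .of_forall fun n y hy => (hE n).toAnc.secGe ht (mem_of_bl hy).2 hε.le,
    k1.sc_le bk_Iic ht (subset_univ _) r3 (hP r r1 r2 (-t)) (by linarith)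
      ((hC' r r1 r2).mono fun n hn => hn t ht)⟩

theorem evg_lim {l : Ultrafilter ι} (hE : ∀ n, Evg w (g n) (U n))
    {L : Lim l U (fun n => g n 0) x ⊤} {G : ℝ → Ten E3 L.X} (h : FL L G (Iic 0) univ)
    (h0 : G 0 = L.h) (hs : ∀ t ≤ 0, ∀ p, SecGe (G t) p 0 ∧ Sc (G t) p ≤ C) : Evg w G univ where
  rf := h.rf
  hs := hs_of_t2 _
  conn := isPreconnected_univ
  cpl _ ht := h.cpl bk_Iic (fun t ht p => (hs t ht p).1) ht
  sec t ht p _ := (hs t ht p).1
  bdd := ⟨C, fun t ht p _ => (hs t ht p).2⟩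
  pos := (hE (l.nonempty_of_mem univ_mem).some).pos
  av p hp _ hr := h0 ▸ conv_vl L.conv
    (.of_forall fun n => ⟨(hE n).toAnc.met le_rfl, (hE n).hs⟩) hp hr (fun _ _ => L.cpl p hp _)
    fun s hs => (L.conv.ap_mem hp (ap_const p)).mono fun n hn => (hE n).av _ hn s hs.1

end seq

variable {M : Type} [TopologicalSpace M] [ChartedSpace E3 M] [IsManifold 𝓘(ℝ, E3) ∞ M]
  [MeasurableSpace M] [BorelSpace M] {g : ℝ → Ten E3 M} {U : Set M} {w Q A ε : ℝ} {x q : M}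

theorem av_of (h : Anc g U) (hx : x ∈ U) (hw : 0 < w) (hv : ∀ r > 0, Vl w (g 0) U x r) :
    AV (w / 8) (g 0) U := fun y hy r hr => by
  have hd : 0 ≤ dd (g 0) U y x := ENNReal.toReal_nonneg
  set d := dd (g 0) U y x
  have h1 : Vl (w / 8) (g 0) U y (r + 2 * d) := (hv (r + d) (by linarith)).of_sub
    (P216BF.bl_sub_bl (a := d) (ed_eq_dd (h.ed_ne le_rfl hy hx)).le hd (by linarith)) (by
      have : (r + 2 * d) ^ 3 ≤ (2 * (r + d)) ^ 3 := by gcongr; linarith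
      nlinarith)
  refine le_trans ?_ (P216BG.bg0 (h.met le_rfl) h.hs (h.cpt le_rfl hy (r + 2 * d)) (by simp)
    (fun z hz v => by simpa using h.ricGe le_rfl (mem_of_bl hz).2 v) hr (by linarith))
  refine le_trans (le_of_eq ?_) (mul_le_mul_right h1 _)
  rw [← ENNReal.ofReal_mul (by positivity), P216BF.finrank_E3]
  congr 1
  field_simp

theorem Evg.resc (h : Evg w g U) (hQ : 0 < Q) : Evg w (resc g Q 0) U where
  toAnc := h.toAnc.resc hQ le_rfl
  bdd := h.bdd.resc hQ le_rfl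
  pos := h.pos
  av y hy r hr := by
    rw [resc_zero, vl_sc (h.toAnc.met le_rfl) hQ (h.toAnc.cpt le_rfl hy _)]
    exact h.av y hy _ (by positivity)

omit [MeasurableSpace M] [BorelSpace M] in
lemma dd_resc {r : ℝ} (hr : 0 < r) (a b : M) :
    dd (resc g (r ^ 2)⁻¹ 0 0) U a b = dd (g 0) U a b / r := by
  rw [resc_zero, dd_sc (by positivity), Real.sqrt_inv, Real.sqrt_sq hr.le, inv_mul_eq_div]

omit [MeasurableSpace M] [BorelSpace M] in
lemma bl_resc {r : ℝ} (hr : 0 < r) (a : M) (s : ℝ) :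
    bl (resc g (r ^ 2)⁻¹ 0 0) U a s = bl (g 0) U a (s * r) := by
  rw [resc_zero, bl_sc (by positivity), Real.sqrt_inv, Real.sqrt_sq hr.le, div_inv_eq_mul]

omit [MeasurableSpace M] [BorelSpace M] in
lemma sc_resc {r : ℝ} (hr : 0 < r) (a : M) :
    Sc (resc g (r ^ 2)⁻¹ 0 0) a = Sc (g 0) a * r ^ 2 := by
  rw [resc_zero, sc_sc (by positivity), div_inv_eq_mul]

theorem cone_false (h0 : LIM0) (h1 : LIM1) (hH : HARN) (h4 : S4) (hE : Evg w g U) (hq : q ∈ U)
    {y : ℕ → M} (hy : ∀ n, y n ∈ U) {r : ℕ → ℝ} (hr : ∀ n, dd (g 0) U q (y n) = r n)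
    (hn : ∀ n : ℕ, (n : ℝ) < r n) (hε : 0 < ε) (k1 : ∀ n, ε ≤ Sc (g 0) (y n) * r n ^ 2)
    (k2 : ∀ n, ∀ z ∈ bl (g 0) U (y n) (r n / 2), Sc (g 0) z * r n ^ 2 ≤ A) : False := by
  have r0 : ∀ n, 0 < r n := fun n => (Nat.cast_nonneg n).trans_lt (hn n)
  let l := hyperfilter ℕ
  have r1 : Tendsto r l atTop := (tendsto_atTop_mono (fun n => (hn n).le)
    tendsto_natCast_atTop_atTop).mono_left Nat.hyperfilter_le_atTop
  have hE' : ∀ n, Evg w (resc g (r n ^ 2)⁻¹ 0) U := fun n => hE.resc (by have := r0 n; positivity)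
  obtain ⟨L, G, g1, g2, g3, g4⟩ := exists_lim (M := fun _ => M) (C := A) (x := y) h0 h1 hH l hE' hy
    (ρ := ENNReal.ofReal (1 / 2)) (by simp) fun s _ hs => .of_forall fun n z hz => by
      rw [sc_resc (r0 n)]
      rw [bl_resc (r0 n)] at hz
      exact k2 n z (bl_mono (by nlinarith [(ENNReal.ofReal_lt_ofReal_iff (by norm_num)).1 hs, r0 n]) hz)
  have hm := anc_ms hE.toAnc le_rfl
  have hX := nn_sp hm (hE.cpl 0 le_rfl) (hE.sec 0 le_rfl)
  have := Sp.proper hm (hE.cpl 0 le_rfl)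
  let o := Sp.mk hm q hq
  have hU : ∀ᶠ n in (l : Filter ℕ), Hs U := .of_forall fun _ => hE.hs
  have hF : ∀ p, ∀ᶠ n in (l : Filter ℕ), L.F n p ∈ U := fun p =>
    L.conv.ap_mem (mem_univ p) (ap_const p)
  have ha : ∀ p, ∃ a ∈ Icc (1 / 2 : ℝ) (3 / 2),
      Tendsto (fun n => dist o (up o (L.F n p)) / r n) l (𝓝 a) := fun p => by
    refine isCompact_Icc.ultrafilter_le_nhds (l.map _) (le_principal_iff.2 (mem_map.2 ?_))
    filter_upwards [hF p, L.conv.ap_lt L.ap (ap_const p) (L.lt p)] with n m1 m2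
    have m3 := dd_lt_of_bl m2
    have m4 := abs_dist_sub_le (Sp.mk hm _ (hy n)) (up o (L.F n p)) o
    have m5 : dist o (Sp.mk hm _ (hy n)) = r n := (Sp.dist_eq _ _).trans (hr n)
    rw [dist_comm _ o, dist_comm _ o, m5, Sp.dist_eq (Sp.mk hm _ (hy n)), up_val o m1,
      Sp.val_mk, abs_le] at m4
    rw [dd_resc (r0 n), div_lt_iff₀ (r0 n)] at m3
    exact ⟨(le_div_iff₀ (r0 n)).2 (by linarith [m4.2]), (div_le_iff₀ (r0 n)).2 (by linarith [m4.1])⟩
  choose a a1 a2 using ha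
  have hd : ∀ p ∈ bl L.h univ L.o (1 / 8), ∀ p' ∈ bl L.h univ L.o (1 / 8),
      Tendsto (fun n => dist (up o (L.F n p)) (up o (L.F n p')) / r n) l
        (𝓝 (dd L.h univ p p')) := fun p hp p' hp' => by
    refine (L.tendsto_dd hU (ap_const p) (ap_const p') ?_).congr' ?_
    · have e := ed_le_add (ed_comm.trans_le (le_of_lt hp)) (le_of_lt hp') (by norm_num) (by norm_num)
      refine (add_le_add (le_of_lt hp) e).trans ?_
      rw [← ENNReal.ofReal_add (by norm_num) (by norm_num)]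
      exact ENNReal.ofReal_le_ofReal (by norm_num)
    · filter_upwards [hF p, hF p'] with n m1 m2
      rw [dd_resc (r0 n), Sp.dist_eq, up_val o m1, up_val o m2]
  have hV := L.conv.met.isOpen_bl L.o (1 / 8)
  have hc : ContinuousOn a (bl L.h univ L.o (1 / 8)) := fun p hp => by
    have e1 : Tendsto (dd L.h univ p) (𝓝[bl L.h univ L.o (1 / 8)] p) (𝓝 0) := by
      have := L.conv.met.continuousAt_dd_right (L.ne_top p p)
      rw [ContinuousAt, dd, ed_self (mem_univ p)] at this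
      exact this.mono_left nhdsWithin_le_nhds
    refine tendsto_iff_dist_tendsto_zero.2 (squeeze_zero' (.of_forall fun _ => dist_nonneg)
      (eventually_mem_nhdsWithin.mono fun p' hp' => ?_) e1)
    refine le_of_tendsto_of_tendsto' ((a2 p').dist (a2 p)) (hd p hp p' hp') fun n => ?_
    rw [Real.dist_eq, ← sub_div, abs_div, abs_of_pos (r0 n), dist_comm o, dist_comm o,
      dist_comm (up o _) (up o _)]
    exact div_le_div_of_nonneg_right (abs_dist_sub_le _ _ _) (r0 n).le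
  obtain ⟨u1, u2⟩ := P216RG.rig (u := fun p => a p ^ 2 / 2) (lam := 1) (P216CP.hr E3) L.conv.met
    (hs_of_t2 _) hV (subset_univ _) ((hc.pow 2).div_const 2) fun σ T hσ hm => by
      rcases hσ.nonneg.eq_or_lt with rfl | hT
      · simp only [zero_div]; ring
      have i0 : (0 : ℝ) ∈ Icc 0 T := left_mem_Icc.2 hT.le
      have i1 : T ∈ Icc 0 T := right_mem_Icc.2 hT.le
      have i2 : T / 2 ∈ Icc 0 T := ⟨by linarith, by linarith⟩
      have e1 := hd _ (hm i0) _ (hm i2)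
      have e2 := hd _ (hm i1) _ (hm i2)
      have e3 := hd _ (hm i0) _ (hm i1)
      rw [minGeo_dd hσ i0 i2, zero_sub, abs_neg, abs_of_pos (half_pos hT)] at e1
      rw [minGeo_dd hσ i1 i2, sub_half, abs_of_pos (half_pos hT)] at e2
      rw [minGeo_dd hσ i0 i1, zero_sub, abs_neg, abs_of_pos hT, ← add_halves T] at e3
      have := hX.cone l r1 (a2 (σ 0)) (a2 (σ T)) (a2 (σ (T / 2))) (by linarith [(a1 (σ 0)).1])
        (by linarith [(a1 (σ T)).1]) (by linarith [(a1 (σ (T / 2))).1]) e1 e2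
        (by simpa only [add_halves] using e3) (half_pos hT) (half_pos hT)
      refine mul_left_cancel₀ hT.ne' ?_
      linarith
  have := h4 L.X G _ _ 1 one_pos (g1.rf.mono (fun _ h => h.2) hV (subset_univ _)) (hs_of_t2 _)
    (fun t ht p _ => (g3 t ht.2 p).1) u1 (fun p hp => by rw [g2, u2 p hp, one_smul]) L.o
    (mem_of_mem_nhds (L.conv.met.bl_mem_nhds (mem_univ _) (by norm_num)))
  rw [this] at g4
  exact hε.not_ge (ge_of_tendsto' g4 fun n => by rw [sc_resc (r0 n)]; exact k1 n)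

end Vale.Agent.P216K
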