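import Vale.Agent.P216K.NN

/-! # Lines in nonnegatively curved metric spaces -/

open Set Filter Topology Metric

namespace Vale.Agent.P216K

variable {X : Type*} [MetricSpace X] {ι : Type*}

/-- `b` is the Busemann function of the line `σ` -/
def Bus (σ : ℝ → X) (b : X → ℝ) : Prop :=
  ∀ x t, dist x (σ t) ^ 2 = t ^ 2 - 2 * t * b x + dist x (σ 0) ^ 2

lemma nonpos_of_mul_le {c K a : ℝ} (h : ∀ s ≥ a, c * s ≤ K) : c ≤ 0 := by
  by_contra hc
  push Not at hc
  have h1 := h (max a ((K + 1) / c)) (le_max_left _ _)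
  have h2 := mul_le_mul_of_nonneg_left (le_max_right a ((K + 1) / c)) hc.le
  rw [mul_div_cancel₀ _ hc.ne'] at h2
  linarith

lemma nonpos_of_le_div {c K a : ℝ} (h : ∀ s ≥ a, 0 < s → c ≤ K / s) : c ≤ 0 :=
  nonpos_of_mul_le (K := K) (a := max a 1) fun s hs => by
    have h1 : 0 < s := lt_of_lt_of_le (by positivity) hs
    exact (le_div_iff₀ h1).1 (h s ((le_max_left _ _).trans hs) h1)

/-- a function that is concave on the line, with `f s + f (-s) ≥ 0`, is affine -/
lemma affine_of_stewart {f : ℝ → ℝ}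
    (h : ∀ a b s, s ∈ Icc a b → (b - s) * f a + (s - a) * f b ≤ (b - a) * f s)
    (h0 : ∀ s, 0 ≤ f s + f (-s)) (t : ℝ) : f t = f 0 + t * (f 1 - f 0) := by
  have key : ∀ a b s, a < s → s < b → (b - a) * f s = (b - s) * f a + (s - a) * f b := by
    intro a b s h1 h2
    refine le_antisymm ?_ (h a b s ⟨h1.le, h2.le⟩)
    refine sub_nonpos.1 (nonpos_of_mul_le (a := |a| + |b|)
      (K := (b - s) * ((s - a) * (f b + f a)) + (b - s) * b * (f s - f b) * 0
        + (s - a) * (b * (f s - f b)) - (b - s) * (a * (f s - f a))) fun S hS => ?_)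
    have p1 := h s S b ⟨h2.le, by linarith [le_abs_self b, abs_nonneg a]⟩
    have p2 := h (-S) s a ⟨by linarith [neg_abs_le a, abs_nonneg b], h1.le⟩
    have p3 := h0 S
    have q1 := mul_le_mul_of_nonneg_left p1 (sub_pos.2 h1).le
    have q2 := mul_le_mul_of_nonneg_left p2 (sub_pos.2 h2).le
    have q3 := mul_nonneg (mul_pos (sub_pos.2 h1) (sub_pos.2 h2)).le p3
    nlinarith
  rcases lt_trichotomy t 0 with ht | rfl | ht
  · linear_combination -key t 1 0 ht one_pos
  · ring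
  rcases lt_trichotomy t 1 with h1 | rfl | h1
  · linear_combination key 0 1 t ht h1
  · ring
  · linear_combination -key 0 t 1 one_pos h1

theorem NN.exists_bus (hX : NN X) {σ : ℝ → X} (hσ : Iso σ univ) : ∃ b, Bus σ b := by
  refine ⟨fun x => (1 + dist x (σ 0) ^ 2 - dist x (σ 1) ^ 2) / 2, fun x t => ?_⟩
  have := affine_of_stewart (f := fun s => dist x (σ s) ^ 2 - s ^ 2) (fun a b s hs => by
    have := hX.stewart x hσ (subset_univ _) hs
    linarith) (fun s => by
    have h1 := dist_triangle_left (σ s) (σ (-s)) x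
    rw [hσ s trivial (-s) trivial, sub_neg_eq_add, ← two_mul, abs_mul, abs_two] at h1
    have h2 := sq_abs s
    have h3 := mul_self_le_mul_self (by positivity) h1
    nlinarith [sq_nonneg (dist x (σ s) - dist x (σ (-s)))]) t
  linarith

namespace Bus

variable {σ : ℝ → X} {b : X → ℝ}

lemma unique {b' : X → ℝ} (h : Bus σ b) (h' : Bus σ b') : b = b' :=
  funext fun x => by linarith [h x 1, h' x 1]

lemma self (h : Bus σ b) (hσ : Iso σ univ) (s : ℝ) : b (σ s) = s := by
  have := h (σ s) 1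
  rw [hσ _ trivial _ trivial, hσ _ trivial _ trivial, sq_abs, sq_abs] at this
  linarith

lemma sq_le (h : Bus σ b) (x : X) : b x ^ 2 ≤ dist x (σ 0) ^ 2 := by
  nlinarith [h x (b x), sq_nonneg (dist x (σ (b x)))]

lemma tendsto (h : Bus σ b) (x : X) :
    Tendsto (fun s => s - dist x (σ s)) atTop (𝓝 (b x)) := by
  have h0 := sub_nonneg.2 (h.sq_le x)
  have h1 : Tendsto (fun s => b x - (dist x (σ 0) ^ 2 - b x ^ 2) / (s - b x)) atTop
      (𝓝 (b x - 0)) :=
    (tendsto_const_nhds.div_atTop (tendsto_atTop_add_const_right _ _ tendsto_id)).const_sub _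
  rw [sub_zero] at h1
  refine tendsto_of_tendsto_of_tendsto_of_le_of_le' h1 tendsto_const_nhds ?_ ?_ <;>
  filter_upwards [eventually_gt_atTop (b x)] with s hs
  all_goals
    have h2 : s - b x ≤ dist x (σ s) := abs_le_of_sq_le_sq' (by nlinarith [h x s]) dist_nonneg |>.2
  · have h3 : dist x (σ s) - (s - b x) ≤ (dist x (σ 0) ^ 2 - b x ^ 2) / (s - b x) := by
      rw [le_div_iff₀ (by linarith)]
      nlinarith [h x s]
    linarith
  · linarith

lemma lip (h : Bus σ b) (x y : X) : |b x - b y| ≤ dist x y := by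
  refine le_of_tendsto' ((h.tendsto x).sub (h.tendsto y)).abs fun s => ?_
  rw [sub_sub_sub_cancel_left, dist_comm x y]
  exact abs_dist_sub_le _ _ _

lemma cont (h : Bus σ b) : Continuous b :=
  (LipschitzWith.of_dist_le_mul (K := 1) fun x y => by
    simpa [Real.dist_eq] using h.lip x y).continuous

lemma neg (h : Bus σ b) : Bus (fun s => σ (-s)) fun x => -b x := fun x t => by
  simp only [h x (-t), neg_zero]; ring

/-- Busemann functions of lines are affine along segments -/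
lemma affine (h : Bus σ b) (hX : NN X) {c : ℝ → X} {I : Set ℝ} (hc : Iso c I) {u v s : ℝ}
    (hI : Icc u v ⊆ I) (hs : s ∈ Icc u v) :
    (v - u) * b (c s) = (v - s) * b (c u) + (s - u) * b (c v) := by
  have key : ∀ {σ : ℝ → X} {b : X → ℝ}, Bus σ b →
      (v - u) * b (c s) ≤ (v - s) * b (c u) + (s - u) * b (c v) := fun {σ b} h => by
    refine sub_nonpos.1 (nonpos_of_mul_le (a := 0) (K := ((v - u) * dist (c s) (σ 0) ^ 2 -
      (v - s) * dist (c u) (σ 0) ^ 2 - (s - u) * dist (c v) (σ 0) ^ 2 +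
      (v - u) * ((s - u) * (v - s))) / 2) fun t _ => ?_)
    have := hX.stewart (σ t) hc hI hs
    simp only [dist_comm (σ t), h _ t] at this
    linarith
  linarith [key h, key h.neg]

lemma between (h : Bus σ b) (hX : NN X) {c : ℝ → X} {L s β : ℝ} (hc : Iso c (Icc 0 L))
    (hs : s ∈ Icc 0 L) (hL : b (c 0) = β) : |b (c s) - β| ≤ |b (c L) - β| := by
  rcases (hs.1.trans hs.2).eq_or_lt with rfl | h0
  · rw [le_antisymm hs.2 hs.1]
  have h1 := h.affine hX hc Subset.rfl hs
  have h2 : b (c s) - β = s / L * (b (c L) - β) := by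
    field_simp; linear_combination h1 + (L - s) * hL
  rw [h2, abs_mul]
  refine mul_le_of_le_one_left (abs_nonneg _) ?_
  rw [abs_of_nonneg (div_nonneg hs.1 h0.le), div_le_one h0]
  exact hs.2

lemma exists_ray [ProperSpace X] (h : Bus σ b) (hX : NN X) (y : X) :
    ∃ α : ℝ → X, α 0 = y ∧ Iso α (Ici 0) ∧ ∀ s ≥ 0, b (α s) = b y + s := by
  choose c c0 c1 hc using fun n : ℝ => hX.seg y (σ n)
  obtain ⟨l, hl⟩ := Ultrafilter.exists_le (atTop : Filter ℝ)
  have h1 : Tendsto (fun s => s - dist y (σ s)) l (𝓝 (b y)) := (h.tendsto y).mono_left hl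
  have h2 : Tendsto (fun s => dist y (σ s)) l atTop := by
    simpa using (tendsto_id.mono_left hl).atTop_add h1.neg
  obtain ⟨α, a0, hα, la⟩ := P216K.exists_ray l h2 hc c0
  refine ⟨α, a0, hα, fun s hs => le_antisymm ?_ ?_⟩
  · have := h.lip (α s) (α 0)
    rw [dist_comm, hα.dist_zero self_mem_Ici hs hs, a0] at this
    linarith [le_abs_self (b (α s) - b y)]
  · -- `n - dist (α s) (σ n) ≥ n - dist (α s) (c n s) - (dist y (σ n) - s)`
    have h3 := (h1.add_const s).sub (tendsto_iff_dist_tendsto_zero.1 (la s hs))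
    rw [sub_zero] at h3
    refine le_of_tendsto_of_tendsto h3 ((h.tendsto (α s)).mono_left hl) ?_
    filter_upwards [h2.eventually_ge_atTop s] with n hn
    have h4 := hc n s ⟨hs, hn⟩ _ ⟨hs.trans hn, le_rfl⟩
    rw [c1, abs_of_nonpos (by linarith)] at h4
    linarith [dist_triangle_left (α s) (σ n) (c n s)]

/-- the parallel line through a point -/
theorem exists_par [ProperSpace X] (h : Bus σ b) (hX : NN X) (y : X) :
    ∃ τ : ℝ → X, τ 0 = y ∧ Iso τ univ ∧ Bus τ fun x => b x - b y := by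
  obtain ⟨α, a0, hα, ba⟩ := h.exists_ray hX y
  obtain ⟨β, b0, hβ, bb⟩ := h.neg.exists_ray hX y
  obtain ⟨τ, hτ⟩ : ∃ τ : ℝ → X, τ = fun s => if 0 ≤ s then α s else β (-s) := ⟨_, rfl⟩
  have t1 : ∀ s, 0 ≤ s → τ s = α s := fun s hs => by simp [hτ, hs]
  have t2 : ∀ s, s ≤ 0 → τ s = β (-s) := fun s hs => by
    rcases hs.eq_or_lt with rfl | hs
    · simp [hτ, a0, b0]
    · simp [hτ, hs.not_ge]
  have t0 : τ 0 = y := (t1 0 le_rfl).trans a0
  have bt : ∀ s, b (τ s) = b y + s := fun s => by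
    rcases le_total 0 s with hs | hs
    · rw [t1 s hs, ba s hs]
    · have := bb (-s) (by linarith)
      rw [t2 s hs]; linarith
  have mixed : ∀ s t, 0 ≤ s → t ≤ 0 → dist (τ s) (τ t) ≤ |s - t| := fun s t hs ht => by
    have := dist_triangle_left (τ s) (τ t) y
    nth_rw 1 [← a0] at this
    rw [← b0, t1 s hs, t2 t ht, hα.dist_zero self_mem_Ici hs hs,
      hβ.dist_zero self_mem_Ici (by simpa using ht) (by linarith)] at this
    rw [t1 s hs, t2 t ht]
    linarith [le_abs_self (s - t)]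
  have hI : Iso τ univ := fun s _ t _ => by
    refine le_antisymm ?_ (by simpa [bt] using h.lip (τ s) (τ t))
    rcases le_total 0 s with hs | hs <;> rcases le_total 0 t with ht | ht
    · rw [t1 s hs, t1 t ht, hα s hs t ht]
    · exact mixed s t hs ht
    · rw [dist_comm, abs_sub_comm]; exact mixed t s ht hs
    · rw [t2 s hs, t2 t ht, hβ _ (by simpa using hs) _ (by simpa using ht), ← abs_neg]
      apply le_of_eq; congr 1; ring
  obtain ⟨b', hb'⟩ := hX.exists_bus hI
  refine ⟨τ, t0, hI, ?_⟩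
  have key : ∀ {τ : ℝ → X} {b b' : X → ℝ}, Bus τ b' → (∀ x y, |b x - b y| ≤ dist x y) →
      (∀ s, b (τ s) = b y + s) → ∀ x, b' x ≤ b x - b y := fun {τ b b'} h1 h2 h3 x =>
    le_of_tendsto' (h1.tendsto x) fun s => by
      have := h2 x (τ s)
      rw [h3] at this
      linarith [neg_abs_le (b x - (b y + s))]
  have e : b' = fun x => b x - b y := funext fun x => le_antisymm (key hb' h.lip bt x) (by
    have := key (b := fun x => -b x) hb'.neg h.neg.lip (fun s => by rw [bt]; ring) x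
    linarith)
  exact e ▸ hb'

end Bus

/-- an axis: a line with its Busemann function, or a point -/
structure Ax (σ : ℝ → X) (b : X → ℝ) : Prop where
  min : ∀ x s, dist x (σ (b x)) ≤ dist x (σ s)
  le : ∀ x s, dist x (σ s) ≤ dist x (σ (b x)) + |b x - s|

lemma Ax.lip {σ : ℝ → X} {b : X → ℝ} (h : Ax σ b) (x y : X) :
    dist x (σ (b x)) ≤ dist x y + dist y (σ (b y)) := (h.min x _).trans (dist_triangle _ _ _)

lemma ax_const (q : X) : Ax (fun _ => q) fun _ => 0 :=
  ⟨fun _ _ => le_rfl, fun _ _ => le_add_of_nonneg_right (abs_nonneg _)⟩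

lemma Bus.pyth {σ : ℝ → X} {b : X → ℝ} (h : Bus σ b) (x : X) (s : ℝ) :
    dist x (σ s) ^ 2 = dist x (σ (b x)) ^ 2 + (b x - s) ^ 2 := by
  rw [h x s, h x (b x)]; ring

lemma Bus.ax {σ : ℝ → X} {b : X → ℝ} (h : Bus σ b) : Ax σ b :=
  ⟨fun x s => (abs_le_of_sq_le_sq' (by nlinarith [h.pyth x s]) dist_nonneg).2, fun x s =>
    (abs_le_of_sq_le_sq' (by
      nlinarith [h.pyth x s, sq_abs (b x - s),
        mul_nonneg (dist_nonneg (x := x) (y := σ (b x))) (abs_nonneg (b x - s))])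
      (by positivity)).2⟩

/-- the distance to a line is constant along parallel lines -/
lemma Bus.par_dist {σ τ : ℝ → X} {b : X → ℝ} (h : Bus σ b) (hσ : Iso σ univ) (hτ : Iso τ univ)
    (h' : Bus τ fun x => b x - b (τ 0)) (s : ℝ) :
    b (τ s) = b (τ 0) + s ∧ dist (τ s) (σ (b (τ s))) = dist (τ 0) (σ (b (τ 0))) := by
  have h1 : b (τ s) = b (τ 0) + s := by linarith [h'.self hτ s]
  refine ⟨h1, (sq_eq_sq₀ dist_nonneg dist_nonneg).1 ?_⟩
  have h2 := h' (σ (b (τ s))) s
  have h3 := h.pyth (τ 0) (b (τ s))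
  simp only [h.self hσ] at h2
  rw [dist_comm (τ s), h2, dist_comm, h3, h1]
  ring

/-- **leaving the tube about the axis** -/
theorem NN.exit (hX : NN X) {d : X → X → ℝ} {δ b : X → ℝ} {σ : ℝ → X} {η c Λ : ℝ} {K C : ℕ}
    {x : X} (hη : 0 < η) (hΛ : 1 ≤ Λ) (hC : 6 ≤ C) (hK : 1944 * (K : ℝ) < c * C)
    (h1 : ∀ l s, 0 < s → s ≤ l → ∃ S : Finset X, ↑S ⊆ ball x l ∧
      (S : Set X).Pairwise (fun a b => s ≤ dist a b) ∧ c * (l / s) ^ 3 ≤ S.card)
    (h2 : ∀ (z : X) (S : Finset X), (∀ a ∈ S, d a z ≤ 3 * η) →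
      (S : Set X).Pairwise (fun a b => η / Λ ≤ d a b) → S.card ≤ K)
    (h3 : ∀ a s, d a (σ s) ≤ δ a + |b a - s|)
    (h4 : ∀ (c : ℝ → X) L s, Iso c (Icc 0 L) → s ∈ Icc 0 L → b (c 0) = b x →
      |b (c s) - b x| ≤ |b (c L) - b x|)
    (h5 : ∀ a, |b a - b x| ≤ dist a x) (hδ : Continuous δ)
    (h6 : ∀ D, ∃ P, b P = b x ∧ 2 * η ≤ δ P ∧ D ≤ dist x P)
    (h7 : ∀ l, ∃ D, ∀ a, δ a ≤ 2 * η → |b a - b x| ≤ l → dist a x ≤ D)
    (h8 : ∀ a a', δ a = 2 * η → d a a' < η → dist a a' ≤ Λ * d a a') :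
    ∃ y, η ≤ δ y ∧ dist x y ≤ C * η := by
  classical
  by_contra hcon
  push Not at hcon
  have hC' : (6 : ℝ) ≤ C := by exact_mod_cast hC
  obtain ⟨l, hl⟩ : ∃ l, l = C * η := ⟨_, rfl⟩
  have hl0 : 0 < l := by rw [hl]; positivity
  obtain ⟨S, hS, hsep, hcard⟩ := h1 l (6 * η) (by positivity) (by rw [hl]; gcongr)
  obtain ⟨D, hD⟩ := h7 l
  obtain ⟨P, bP, δP, dP⟩ := h6 (2 * (D + l) + 2 * l)
  have hD0 : ∀ w ∈ S, dist w x < l ∧ δ w < η ∧ |dist P w - dist x P| ≤ l := fun w hw => by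
    have h := mem_ball.1 (hS hw)
    refine ⟨h, lt_of_not_ge fun k => (hcon w k).not_ge (by rw [dist_comm, ← hl]; exact h.le), ?_⟩
    rw [dist_comm P]
    exact (abs_dist_sub_le ..).trans h.le
  choose g g0 g1 hg using fun w => hX.seg P w
  have h9 : ∀ w, ∃ s, w ∈ S → s ∈ Icc 0 (dist P w) ∧ δ (g w s) = 2 * η := fun w => by
    by_cases hw : w ∈ S
    · obtain ⟨s, hs, e⟩ := intermediate_value_Icc' (f := fun s => δ (g w s)) dist_nonneg
        (hδ.comp_continuousOn (hg w).continuousOn)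
        (⟨by simp only [g1]; linarith [(hD0 w hw).2.1], by simp only [g0]; exact δP⟩ :
          2 * η ∈ Icc _ _)
      exact ⟨s, fun _ => ⟨hs, e⟩⟩
    · exact ⟨0, fun h => absurd h hw⟩
  choose s hs using h9
  have hb : ∀ w ∈ S, |b (g w (s w)) - b x| ≤ l := fun w hw => by
    have := h4 _ _ _ (hg w) (hs w hw).1 (by rw [g0, bP])
    rw [g1] at this
    exact this.trans ((h5 w).trans (hD0 w hw).1.le)
  have hh : ∀ w ∈ S, 0 < s w ∧ dist P w ≤ 2 * s w := fun w hw => by
    have a1 := hg w _ (hs w hw).1 _ (right_mem_Icc.2 dist_nonneg)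
    rw [g1, abs_of_nonpos (sub_nonpos.2 (hs w hw).1.2)] at a1
    have a2 := hD _ (hs w hw).2.le (hb w hw)
    have a3 := dist_triangle_right (g w (s w)) w x
    have a4 := neg_le_of_abs_le (hD0 w hw).2.2
    have a5 := dist_nonneg.trans a2
    constructor <;> linarith [(hD0 w hw).1]
  have hfl : ∀ u : ℝ, |u| ≤ l → ⌊(u + l) / η⌋₊ ∈ Finset.range (2 * C + 1) := fun u hu => by
    rw [Finset.mem_range, Nat.lt_succ_iff]
    refine Nat.floor_le_of_le ?_
    rw [div_le_iff₀ hη]
    push_cast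
    linarith [le_of_abs_le hu]
  have hfl2 : ∀ u : ℝ, |u| ≤ l → |u + l - ⌊(u + l) / η⌋₊ * η| ≤ η ∧
      ⌊(u + l) / η⌋₊ * η ≤ u + l := fun u hu => by
    have a1 := Nat.floor_le (div_nonneg (by linarith [neg_le_of_abs_le hu] : 0 ≤ u + l) hη.le)
    have a2 := Nat.lt_floor_add_one ((u + l) / η)
    rw [le_div_iff₀ hη] at a1
    rw [div_lt_iff₀ hη] at a2
    exact ⟨abs_le.2 ⟨by linarith, by linarith⟩, a1⟩
  have main := Finset.card_le_mul_card_image_of_maps_to (s := S)
    (t := Finset.range (2 * C + 1) ×ˢ Finset.range (2 * C + 1))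
    (f := fun w => (⌊(dist P w - dist x P + l) / η⌋₊, ⌊(b (g w (s w)) - b x + l) / η⌋₊))
    (fun w hw => Finset.mem_product.2 ⟨hfl _ (hD0 w hw).2.2, hfl _ (hb w hw)⟩) K (by
      rintro ⟨i, j⟩ -
      have sep : ∀ w ∈ S, ∀ v ∈ S, w ≠ v → ⌊(dist P w - dist x P + l) / η⌋₊ = i →
          ⌊(dist P v - dist x P + l) / η⌋₊ = i → η ≤ dist (g w (s w)) (g v (s v)) := by
        intro w hw v hv hne e1 e2
        have a1 := hX.ce_mono (hg w) (hg v) ((g0 w).trans (g0 v).symm) (hh w hw).1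
          (hs w hw).1.2 (hh v hv).1 (hs v hv).1.2
        have a2 := hfl2 _ (hD0 w hw).2.2
        have a3 := hfl2 _ (hD0 v hv).2.2
        rw [e1] at a2
        rw [e2] at a3
        have a4 : (dist P w - dist P v) ^ 2 ≤ η ^ 2 := sq_le_sq'
          (by linarith [le_of_abs_le a3.1, a2.2]) (by linarith [le_of_abs_le a2.1, a3.2])
        have a5 := mul_self_le_mul_self (by positivity) (hsep hw hv hne)
        obtain ⟨p1, p2⟩ := hh w hw
        obtain ⟨p3, p4⟩ := hh v hv
        have p5 : 0 < dist P w := p1.trans_le (hs w hw).1.2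
        have p6 : 0 < dist P v := p3.trans_le (hs v hv).1.2
        simp only [ce, g1] at a1
        rw [div_le_div_iff₀ (by positivity) (by positivity)] at a1
        have a6 : dist P w * dist P v ≤ 4 * (s w * s v) := by nlinarith
        refine (abs_le_of_sq_le_sq' (le_of_mul_le_mul_right ?_ (mul_pos p5 p6)) dist_nonneg).2
        generalize dist (g w (s w)) (g v (s v)) = e at *
        generalize dist w v = f at *
        generalize dist P w = A at *
        generalize dist P v = B at *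
        clear * - a1 a4 a5 a6 p1 p3 p5 p6
        have a7 : 4 * η ^ 2 ≤ f ^ 2 - (A - B) ^ 2 := by nlinarith
        have a8 := mul_le_mul a7 (le_refl (s w * s v)) (by positivity) (by nlinarith)
        have a9 := mul_nonneg (sq_nonneg (s w - s v)) (mul_pos p5 p6).le
        nlinarith
      rw [← Finset.card_image_of_injOn (f := fun w => g w (s w)) (fun w hw v hv e => by
        by_contra hne
        simp only [Finset.coe_filter, Prod.mk.injEq, mem_ofPred_eq] at hw hv
        have := sep w hw.1 v hv.1 hne hw.2.1 hv.2.1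
        rw [show g w (s w) = g v (s v) from e, dist_self] at this
        linarith)]
      refine h2 (σ (b x - l + j * η)) _ ?_ ?_
      · simp only [Finset.mem_image, Finset.mem_filter, Prod.mk.injEq]
        rintro _ ⟨w, ⟨hw, -, e⟩, rfl⟩
        have a1 := (hfl2 _ (hb w hw)).1
        have a2 := h3 (g w (s w)) (b x - l + j * η)
        rw [e] at a1
        rw [(hs w hw).2, show b (g w (s w)) - (b x - l + j * η) =
          b (g w (s w)) - b x + l - j * η by ring] at a2
        linarith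
      · simp only [Finset.coe_image, Finset.coe_filter, Prod.mk.injEq]
        rintro _ ⟨w, ⟨hw, e1, -⟩, rfl⟩ _ ⟨v, ⟨hv, e2, -⟩, rfl⟩ hne
        have a1 := sep w hw v hv (fun e => hne (by rw [e])) e1 e2
        rw [div_le_iff₀ (by linarith)]
        rcases lt_or_ge (d (g w (s w)) (g v (s v))) η with k | k
        · linarith [h8 _ _ (hs w hw).2 k]
        · nlinarith)
  rw [Finset.card_product, Finset.card_range] at main
  have m2 : (S.card : ℝ) ≤ K * ((2 * C + 1) * (2 * C + 1)) := by exact_mod_cast main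
  rw [hl, mul_div_mul_right _ _ hη.ne'] at hcard
  have m3 : (K : ℝ) * ((2 * C + 1) * (2 * C + 1)) ≤ K * (9 * C ^ 2) :=
    mul_le_mul_of_nonneg_left (by clear * - hC'; nlinarith) K.cast_nonneg
  have m4 := mul_lt_mul_of_pos_right hK (show (0 : ℝ) < C ^ 2 / 216 by positivity)
  clear * - m2 m3 m4 hcard
  nlinarith

end Vale.Agent.P216K
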