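import Mathlib.Analysis.Convex.Function
import Mathlib.Analysis.SpecialFunctions.Sqrt
import Mathlib.Analysis.Calculus.LocalExtr.Basic
import Mathlib.Analysis.Calculus.Deriv.Mul
import Mathlib.Analysis.Calculus.Deriv.Pow
import Mathlib.Topology.MetricSpace.ProperSpace
import Mathlib.Topology.Order.MonotoneConvergence
import Mathlib.Order.Filter.Ultrafilter.Basic
import Mathlib.Topology.Algebra.Order.Field

/-! # Nonnegatively curved metric spaces: rays and the cone at infinity -/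

open Set Filter Topology Metric

namespace Vale.Agent.P216K

variable {X : Type*} [MetricSpace X] {ι : Type*}

/-- an isometric curve on the set of times `I` -/
def Iso (c : ℝ → X) (I : Set ℝ) : Prop := ∀ s ∈ I, ∀ t ∈ I, dist (c s) (c t) = |s - t|

/-- geodesic spaces in which squared distances are `2`-concave along segments -/
structure NN (X : Type*) [MetricSpace X] : Prop where
  seg : ∀ x y : X, ∃ c : ℝ → X, c 0 = x ∧ c (dist x y) = y ∧ Iso c (Icc 0 (dist x y))
  conc : ∀ (p : X) (c : ℝ → X) (L : ℝ), Iso c (Icc 0 L) →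
    ConcaveOn ℝ (Icc 0 L) fun s => dist p (c s) ^ 2 - s ^ 2

lemma Iso.mono {c : ℝ → X} {I J : Set ℝ} (h : Iso c I) (hJ : J ⊆ I) : Iso c J :=
  fun s hs t ht => h s (hJ hs) t (hJ ht)

lemma Iso.dist_zero {c : ℝ → X} {I : Set ℝ} (h : Iso c I) (h0 : (0 : ℝ) ∈ I) {s : ℝ} (hs : s ∈ I)
    (hs0 : 0 ≤ s) : dist (c 0) (c s) = s := by
  rw [h 0 h0 s hs, zero_sub, abs_neg, abs_of_nonneg hs0]

lemma Iso.continuousOn {c : ℝ → X} {I : Set ℝ} (h : Iso c I) : ContinuousOn c I :=
  (LipschitzOnWith.of_dist_le_mul (K := 1) fun s hs t ht => by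
    rw [h s hs t ht, Real.dist_eq]; simp).continuousOn

/-- Stewart's inequality -/
lemma NN.stewart (hX : NN X) (p : X) {c : ℝ → X} {I : Set ℝ} (h : Iso c I) {a b s : ℝ}
    (hI : Icc a b ⊆ I) (hs : s ∈ Icc a b) :
    (b - s) * dist p (c a) ^ 2 + (s - a) * dist p (c b) ^ 2 - (b - a) * ((s - a) * (b - s)) ≤
      (b - a) * dist p (c s) ^ 2 := by
  rcases (hs.1.trans hs.2).eq_or_lt with rfl | hab
  · obtain rfl : s = a := le_antisymm hs.2 hs.1
    simp
  have hc : Iso (fun u => c (a + u)) (Icc 0 (b - a)) := fun u hu v hv => by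
    rw [h _ (hI ⟨by linarith [hu.1], by linarith [hu.2]⟩) _
      (hI ⟨by linarith [hv.1], by linarith [hv.2]⟩)]
    congr 1; ring
  have hL : 0 < b - a := sub_pos.2 hab
  have := (hX.conc p _ _ hc).2 (left_mem_Icc.2 hL.le) (right_mem_Icc.2 hL.le)
    (div_nonneg (sub_nonneg.2 hs.2) hL.le)
    (div_nonneg (sub_nonneg.2 hs.1) hL.le) (by field_simp; ring)
  simp only [smul_eq_mul, mul_zero, zero_add, add_zero, div_mul_cancel₀ _ hL.ne',
    add_sub_cancel] at this
  have h2 := mul_le_mul_of_nonneg_left this hL.le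
  field_simp at h2
  nlinarith [h2]

/-- numerator of the comparison cosine -/
def ce (c e : ℝ → X) (s t : ℝ) : ℝ := s ^ 2 + t ^ 2 - dist (c s) (e t) ^ 2

lemma ce_comm (c e : ℝ → X) (s t : ℝ) : ce c e s t = ce e c t s := by
  rw [ce, ce, dist_comm, add_comm]

lemma NN.ce_left (hX : NN X) {c e : ℝ → X} {s s' t : ℝ} (hc : Iso c (Icc 0 s'))
    (ht : dist (c 0) (e t) = t) (hs : s ∈ Icc 0 s') : s' * ce c e s t ≤ s * ce c e s' t := by
  have := hX.stewart (e t) hc Subset.rfl hs
  rw [dist_comm (e t) (c 0), ht, dist_comm (e t), dist_comm (e t)] at this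
  simp only [ce]
  nlinarith [this]

/-- monotonicity of comparison angles -/
lemma NN.ce_mono (hX : NN X) {c e : ℝ → X} {s s' t t' : ℝ} (hc : Iso c (Icc 0 s'))
    (he : Iso e (Icc 0 t')) (h0 : c 0 = e 0) (hs : 0 < s) (hs' : s ≤ s') (ht : 0 < t)
    (ht' : t ≤ t') : ce c e s t / (s * t) ≤ ce c e s' t' / (s' * t') := by
  have a1 : 0 < s' := hs.trans_le hs'
  have a2 : 0 < t' := ht.trans_le ht'
  have h1 := hX.ce_left (e := e) (t := t) hc
    (h0 ▸ he.dist_zero (left_mem_Icc.2 a2.le) ⟨ht.le, ht'⟩ ht.le) ⟨hs.le, hs'⟩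
  have h2 := hX.ce_left (e := c) (t := s') he
    (h0 ▸ hc.dist_zero (left_mem_Icc.2 a1.le) (right_mem_Icc.2 a1.le) a1.le) ⟨ht.le, ht'⟩
  rw [ce_comm e, ce_comm e] at h2
  calc ce c e s t / (s * t) ≤ ce c e s' t / (s' * t) := by
        rw [div_le_div_iff₀ (by positivity) (by positivity)]; nlinarith
    _ ≤ _ := by rw [div_le_div_iff₀ (by positivity) (by positivity)]; nlinarith

lemma ce_le {c e : ℝ → X} {s t : ℝ} (hs : dist (c 0) (c s) = s) (ht : dist (c 0) (e t) = t) :
    ce c e s t ≤ 2 * (s * t) := by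
  have h := abs_dist_sub_le (c s) (e t) (c 0)
  rw [dist_comm (c s) (c 0), dist_comm (e t) (c 0), hs, ht] at h
  have := sq_le_sq' (neg_le_of_abs_le h) (le_of_abs_le h)
  simp only [ce]
  nlinarith

/-- limits of longer and longer segments -/
lemma exists_ray [ProperSpace X] (l : Ultrafilter ι) {c : ι → ℝ → X} {L : ι → ℝ} {p : X}
    (hL : Tendsto L l atTop) (hc : ∀ n, Iso (c n) (Icc 0 (L n))) (h0 : ∀ n, c n 0 = p) :
    ∃ α : ℝ → X, α 0 = p ∧ Iso α (Ici 0) ∧ ∀ s ≥ 0, Tendsto (c · s) l (𝓝 (α s)) := by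
  have h1 : ∀ s : ℝ, ∃ z, 0 ≤ s → Tendsto (c · s) l (𝓝 z) := fun s => by
    by_cases hs : 0 ≤ s
    · obtain ⟨z, -, hz⟩ := (isCompact_closedBall p s).ultrafilter_le_nhds (l.map (c · s)) (by
        rw [le_principal_iff, Ultrafilter.coe_map, mem_map]
        filter_upwards [hL.eventually_ge_atTop s] with n hn
        rw [mem_preimage, mem_closedBall', ← h0 n,
          (hc n).dist_zero (left_mem_Icc.2 (hs.trans hn)) ⟨hs, hn⟩ hs])
      exact ⟨z, fun _ => hz⟩
    · exact ⟨p, fun h => absurd h hs⟩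
  choose α hα using h1
  refine ⟨α, tendsto_nhds_unique (hα 0 le_rfl) (by simp [h0]), fun s hs t ht => ?_, hα⟩
  refine tendsto_nhds_unique ((hα s hs).dist (hα t ht)) (tendsto_const_nhds.congr' ?_)
  filter_upwards [hL.eventually_ge_atTop s, hL.eventually_ge_atTop t] with n a b
  exact (hc n s ⟨hs, a⟩ t ⟨ht, b⟩).symm

/-- every sequence that goes to infinity follows a ray -/
lemma NN.asym_ray [ProperSpace X] (hX : NN X) (l : Ultrafilter ι) {q : X} {a : ι → X}
    (ha : Tendsto (fun n => dist q (a n)) l atTop) : ∃ α : ℝ → X, α 0 = q ∧ Iso α (Ici 0) ∧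
      Tendsto (fun n => dist (a n) (α (dist q (a n))) / dist q (a n)) l (𝓝 0) := by
  choose c h0 h1 hc using fun n => hX.seg q (a n)
  obtain ⟨α, e0, hα, hl⟩ := exists_ray l ha hc h0
  refine ⟨α, e0, hα, ?_⟩
  have h2 : Tendsto (fun n => dist (c n 1) (α 1)) l (𝓝 0) :=
    tendsto_iff_dist_tendsto_zero.1 (hl 1 zero_le_one)
  refine squeeze_zero' (.of_forall fun n => by positivity) ?_ h2
  filter_upwards [ha.eventually_ge_atTop 1] with n hn
  have := hX.ce_mono (hc n) (hα.mono Icc_subset_Ici_self) ((h0 n).trans e0.symm) one_pos hn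
    one_pos hn
  simp only [ce, h1] at this
  have hp : 0 < dist q (a n) := by linarith
  rw [div_le_iff₀ hp]
  refine abs_le_of_sq_le_sq' ?_ (by positivity) |>.2
  rw [mul_one, div_one, le_div_iff₀ (by positivity)] at this
  nlinarith

/-- the comparison cosine of two rays converges at infinity -/
lemma NN.exists_cos (hX : NN X) {α β : ℝ → X} (hα : Iso α (Ici 0)) (hβ : Iso β (Ici 0))
    (h0 : α 0 = β 0) : ∃ κ, ∀ {ι : Type*} {l : Filter ι} {s t : ι → ℝ}, Tendsto s l atTop →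
      Tendsto t l atTop → Tendsto (fun n => ce α β (s n) (t n) / (s n * t n)) l (𝓝 κ) := by
  have hm : ∀ {s s' t t'}, 0 < s → s ≤ s' → 0 < t → t ≤ t' →
      ce α β s t / (s * t) ≤ ce α β s' t' / (s' * t') := fun a b c d =>
    hX.ce_mono (hα.mono Icc_subset_Ici_self) (hβ.mono Icc_subset_Ici_self) h0 a b c d
  let φ : ℝ → ℝ := fun u => ce α β (max u 1) (max u 1) / (max u 1 * max u 1)
  have h1 : Monotone φ := fun u v h => hm (by positivity) (max_le_max_right 1 h) (by positivity)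
    (max_le_max_right 1 h)
  have h2 : BddAbove (range φ) := ⟨2, by
    rintro _ ⟨u, rfl⟩
    have hu : (0 : ℝ) ≤ max u 1 := by positivity
    exact (div_le_iff₀ (by positivity)).2 (ce_le (hα.dist_zero self_mem_Ici hu hu)
      (h0 ▸ hβ.dist_zero self_mem_Ici hu hu))⟩
  have h3 := tendsto_atTop_ciSup h1 h2
  refine ⟨_, fun {ι l s t} hs ht => tendsto_of_tendsto_of_tendsto_of_le_of_le'
    (h3.comp (g := φ) (tendsto_atTop.2 fun u => ?_ : Tendsto (fun n => min (s n) (t n)) l atTop))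
    (h3.comp (g := φ) (tendsto_atTop_mono (fun n => le_max_left (s n) (t n)) hs)) ?_ ?_⟩
  · filter_upwards [hs.eventually_ge_atTop u, ht.eventually_ge_atTop u] with n a b using le_min a b
  · filter_upwards [hs.eventually_ge_atTop 1, ht.eventually_ge_atTop 1] with n a b
    exact hm (by positivity) (max_le (min_le_left _ _) a) (by positivity)
      (max_le (min_le_right _ _) b)
  · filter_upwards [hs.eventually_ge_atTop 1, ht.eventually_ge_atTop 1] with n a b
    exact hm (by linarith) ((le_max_left _ _).trans (le_max_left _ _)) (by linarith)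
      ((le_max_right _ _).trans (le_max_left _ _))

lemma tendsto_atTop_of_div {l : Filter ι} {r s : ι → ℝ} {A : ℝ} (hr : Tendsto r l atTop)
    (hs : Tendsto (fun n => s n / r n) l (𝓝 A)) (hA : 0 < A) : Tendsto s l atTop := by
  refine (Tendsto.pos_mul_atTop hA hs hr).congr' ?_
  filter_upwards [hr.eventually_gt_atTop 0] with n hn using div_mul_cancel₀ _ hn.ne'

/-- the law of cosines at infinity -/
lemma law_cos {α β : ℝ → X} {κ : ℝ} {l : Filter ι} {r s t : ι → ℝ} {A B : ℝ}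
    (hκ : Tendsto s l atTop → Tendsto t l atTop →
      Tendsto (fun n => ce α β (s n) (t n) / (s n * t n)) l (𝓝 κ)) (hr : Tendsto r l atTop)
    (hs : Tendsto (fun n => s n / r n) l (𝓝 A)) (ht : Tendsto (fun n => t n / r n) l (𝓝 B))
    (hA : 0 < A) (hB : 0 < B) :
    Tendsto (fun n => dist (α (s n)) (β (t n)) / r n) l (𝓝 √(A ^ 2 + B ^ 2 - κ * (A * B))) := by
  have h1 := tendsto_atTop_of_div hr hs hA
  have h2 := tendsto_atTop_of_div hr ht hB
  refine (((hs.pow 2).add (ht.pow 2)).sub ((hκ h1 h2).mul (hs.mul ht))).sqrt.congr' ?_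
  filter_upwards [hr.eventually_gt_atTop 0, h1.eventually_gt_atTop 0, h2.eventually_gt_atTop 0]
    with n a b c
  rw [Real.sqrt_eq_iff_eq_sq ?_ (by positivity)]
  · simp only [ce]; field_simp; ring
  · have : (s n / r n) ^ 2 + (t n / r n) ^ 2 - ce α β (s n) (t n) / (s n * t n) *
        (s n / r n * (t n / r n)) = (dist (α (s n)) (β (t n)) / r n) ^ 2 := by
      simp only [ce]; field_simp; ring
    rw [this]; positivity

lemma tendsto_dist_near {l : Filter ι} {r : ι → ℝ} {a a' b b' : ι → X} {h : ℝ}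
    (hr : Tendsto r l atTop) (ha : Tendsto (fun n => dist (a n) (a' n) / r n) l (𝓝 0))
    (hb : Tendsto (fun n => dist (b n) (b' n) / r n) l (𝓝 0))
    (hh : Tendsto (fun n => dist (a n) (b n) / r n) l (𝓝 h)) :
    Tendsto (fun n => dist (a' n) (b' n) / r n) l (𝓝 h) := by
  refine tendsto_of_tendsto_of_tendsto_of_le_of_le' (by simpa using (hh.sub ha).sub hb)
    (by simpa using (hh.add ha).add hb) ?_ ?_ <;>
  filter_upwards [hr.eventually_gt_atTop 0] with n hn
  · rw [← sub_div, ← sub_div]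
    gcongr
    linarith [dist_triangle4_right (a n) (a' n) (b' n) (b n), dist_triangle4 (a n) (a' n) (b' n) (b n), dist_comm (b n) (b' n)]
  · rw [← add_div, ← add_div]
    gcongr
    linarith [dist_triangle4 (a' n) (a n) (b n) (b' n), dist_comm (a n) (a' n)]

lemma NN.asym_ray' [ProperSpace X] (hX : NN X) (l : Ultrafilter ι) {q : X} {a : ι → X}
    {r : ι → ℝ} {A : ℝ} (hr : Tendsto r l atTop)
    (ha : Tendsto (fun n => dist q (a n) / r n) l (𝓝 A)) (hA : 0 < A) :
    ∃ α : ℝ → X, α 0 = q ∧ Iso α (Ici 0) ∧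
      Tendsto (fun n => dist (a n) (α (dist q (a n))) / r n) l (𝓝 0) := by
  have h1 := tendsto_atTop_of_div hr ha hA
  obtain ⟨α, h0, hα, h⟩ := hX.asym_ray l h1
  have h2 := h.mul ha
  rw [zero_mul] at h2
  refine ⟨α, h0, hα, h2.congr' ?_⟩
  filter_upwards [h1.eventually_gt_atTop 0] with n hn
  field_simp

lemma stewart_real {A B m h k κ₁ κ₂ : ℝ} (hh : 0 < h) (hk : 0 < k)
    (e1 : √(A ^ 2 + m ^ 2 - κ₁ * (A * m)) = h) (e2 : √(B ^ 2 + m ^ 2 - κ₂ * (B * m)) = k)
    (hm : 0 < m) (H : ∀ u > 0, h + k ≤ √(A ^ 2 + u ^ 2 - κ₁ * (A * u)) +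
      √(B ^ 2 + u ^ 2 - κ₂ * (B * u))) :
    (h + k) * m ^ 2 = k * A ^ 2 + h * B ^ 2 - (h + k) * (h * k) := by
  have p1 : 0 < A ^ 2 + m ^ 2 - κ₁ * (A * m) := Real.sqrt_pos.1 (e1 ▸ hh)
  have p2 : 0 < B ^ 2 + m ^ 2 - κ₂ * (B * m) := Real.sqrt_pos.1 (e2 ▸ hk)
  have d : ∀ A κ : ℝ, HasDerivAt (fun u => A ^ 2 + u ^ 2 - κ * (A * u)) (2 * m - κ * A) m :=
    fun A κ => by
      simpa using (((hasDerivAt_id m).pow 2).const_add (A ^ 2)).fun_sub
        (((hasDerivAt_id m).const_mul A).const_mul κ)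
  have hmin : IsLocalMin (fun u => √(A ^ 2 + u ^ 2 - κ₁ * (A * u)) +
      √(B ^ 2 + u ^ 2 - κ₂ * (B * u))) m := by
    filter_upwards [lt_mem_nhds hm] with u hu
    rw [e1, e2]; exact H u hu
  have := hmin.hasDerivAt_eq_zero (((d A κ₁).sqrt p1.ne').add ((d B κ₂).sqrt p2.ne'))
  rw [e1, e2] at this
  have q1 : h ^ 2 = A ^ 2 + m ^ 2 - κ₁ * (A * m) := by rw [← e1, Real.sq_sqrt p1.le]
  have q2 : k ^ 2 = B ^ 2 + m ^ 2 - κ₂ * (B * m) := by rw [← e2, Real.sq_sqrt p2.le]
  field_simp at this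
  linear_combination m * this + k * q1 + h * q2

/-- **Stewart's identity in the cone at infinity** -/
theorem NN.cone [ProperSpace X] (hX : NN X) (l : Ultrafilter ι) {q : X} {a b p : ι → X}
    {r : ι → ℝ} {A B m h k : ℝ} (hr : Tendsto r l atTop)
    (ha : Tendsto (fun n => dist q (a n) / r n) l (𝓝 A))
    (hb : Tendsto (fun n => dist q (b n) / r n) l (𝓝 B))
    (hp : Tendsto (fun n => dist q (p n) / r n) l (𝓝 m)) (hA : 0 < A) (hB : 0 < B) (hm : 0 < m)
    (h1 : Tendsto (fun n => dist (a n) (p n) / r n) l (𝓝 h))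
    (h2 : Tendsto (fun n => dist (b n) (p n) / r n) l (𝓝 k))
    (h3 : Tendsto (fun n => dist (a n) (b n) / r n) l (𝓝 (h + k))) (hh : 0 < h) (hk : 0 < k) :
    (h + k) * m ^ 2 = k * A ^ 2 + h * B ^ 2 - (h + k) * (h * k) := by
  obtain ⟨α, a0, hα, la⟩ := hX.asym_ray' l hr ha hA
  obtain ⟨β, b0, hβ, lb⟩ := hX.asym_ray' l hr hb hB
  obtain ⟨μ, m0, hμ, lp⟩ := hX.asym_ray' l hr hp hm
  obtain ⟨κ₁, k1⟩ := hX.exists_cos hα hμ (a0.trans m0.symm)
  obtain ⟨κ₂, k2⟩ := hX.exists_cos hβ hμ (b0.trans m0.symm)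
  refine stewart_real (κ₁ := κ₁) (κ₂ := κ₂) hh hk
    (tendsto_nhds_unique (law_cos k1 hr ha hp hA hm) (tendsto_dist_near hr la lp h1))
    (tendsto_nhds_unique (law_cos k2 hr hb hp hB hm) (tendsto_dist_near hr lb lp h2)) hm
    fun u hu => ?_
  have hu' : Tendsto (fun n => u * r n / r n) l (𝓝 u) := tendsto_const_nhds.congr' (by
    filter_upwards [hr.eventually_gt_atTop 0] with n hn
    field_simp)
  refine le_of_tendsto_of_tendsto (tendsto_dist_near hr la lb h3)
    ((law_cos k1 hr ha hu' hA hu).add (law_cos k2 hr hb hu' hB hu)) ?_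
  filter_upwards [hr.eventually_gt_atTop 0] with n hn
  rw [← add_div]
  gcongr
  exact dist_triangle_right _ _ _

/-- **almost lines through far away points** -/
theorem NN.new_line [ProperSpace X] (hX : NN X) (l : Ultrafilter ι) {q : X} {y : ι → X}
    {ρ : ι → ℝ} (hy : Tendsto (fun n => dist q (y n)) l atTop) (hρ : ∀ n, 0 < ρ n)
    (h0 : Tendsto (fun n => ρ n / dist q (y n)) l (𝓝 0)) :
    ∃ γ : ι → ℝ → X, (∀ n, γ n 0 = y n) ∧
      (∀ s t, Tendsto (fun n => dist (γ n s) (γ n t) / ρ n) l (𝓝 |s - t|)) ∧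
      ∀ s ≤ 0, ∀ᶠ n in l, ∃ c : ℝ → X, Iso c (Icc 0 (dist (y n) q)) ∧ c 0 = y n ∧
        c (dist (y n) q) = q ∧ -s * ρ n ∈ Icc 0 (dist (y n) q) ∧ γ n s = c (-s * ρ n) := by
  obtain ⟨α, a0, hα, la⟩ := hX.asym_ray l hy
  choose c c0 c1 hc using fun n => hX.seg (y n) q
  choose e e0 e1 he using fun n => hX.seg (y n) (α (2 * dist q (y n)))
  obtain ⟨D, hD⟩ : ∃ D : ι → ℝ, D = fun n => dist q (y n) := ⟨_, rfl⟩
  obtain ⟨F, hF⟩ : ∃ F : ι → ℝ, F = fun n => dist (y n) (α (2 * dist q (y n))) := ⟨_, rfl⟩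
  have hD' : ∀ n, dist q (y n) = D n := fun n => by rw [hD]
  have hD'' : ∀ n, dist (y n) q = D n := fun n => by rw [hD, dist_comm]
  simp only [hD'] at hy h0 la he e1 hF
  have hF' : ∀ n, dist (y n) (α (2 * D n)) = F n := fun n => by rw [hF]
  simp only [hF'] at he e1
  simp only [hD''] at hc c1 ⊢
  have hFD : Tendsto (fun n => F n / D n) l (𝓝 1) := by
    have := tendsto_dist_near (a := fun n => α (D n)) (a' := y) (b := fun n => α (2 * D n))
      (b' := fun n => α (2 * D n)) (h := 1) hy (by simpa [dist_comm] using la) (by simp)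
      (tendsto_const_nhds.congr' (by
        filter_upwards [hy.eventually_gt_atTop 0] with n hn
        rw [hα _ hn.le _ (by simp [hn.le]), show D n - 2 * D n = -D n by ring, abs_neg,
          abs_of_pos hn, div_self hn.ne']))
    simpa only [hF'] using this
  have hs1 : ∀ s, ∀ᶠ n in l, s * ρ n ≤ D n := fun s => by
    filter_upwards [(h0.const_mul s).eventually_lt_const (by simp : s * 0 < 1),
      hy.eventually_gt_atTop 0] with n a b
    rw [← mul_div_assoc, div_lt_one b] at a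
    exact a.le
  have hs2 : ∀ s, ∀ᶠ n in l, s * ρ n ≤ F n := fun s => by
    filter_upwards [((h0.const_mul s).sub hFD).eventually_lt_const (by simp : s * 0 - 1 < 0),
      hy.eventually_gt_atTop 0] with n a b
    rw [← mul_div_assoc, ← sub_div, div_neg_iff] at a
    rcases a with a | a <;> linarith [a.1, a.2]
  have same : ∀ {c : ι → ℝ → X} {D : ι → ℝ}, (∀ n, Iso (c n) (Icc 0 (D n))) →
      (∀ s, ∀ᶠ n in l, s * ρ n ≤ D n) → ∀ s t, 0 ≤ s → 0 ≤ t →
      Tendsto (fun n => dist (c n (s * ρ n)) (c n (t * ρ n)) / ρ n) l (𝓝 |s - t|) :=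
    fun hc h s t hs ht => tendsto_const_nhds.congr' (by
      filter_upwards [h s, h t] with n a b
      have := hρ n
      rw [hc n _ ⟨by positivity, a⟩ _ ⟨by positivity, b⟩, ← sub_mul, abs_mul, abs_of_pos this,
        mul_div_cancel_right₀ _ this.ne'])
  have mixed : ∀ s t, 0 < s → 0 < t →
      Tendsto (fun n => dist (c n (s * ρ n)) (e n (t * ρ n)) / ρ n) l (𝓝 (s + t)) := by
    intro s t hs ht
    have k1 : Tendsto (fun n => √(s ^ 2 + t ^ 2 - s * t * (((F n / D n) ^ 2 - 3) / (F n / D n))))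
        l (𝓝 (s + t)) := by
      have := ((((hFD.pow 2).sub_const 3).div hFD one_ne_zero).const_mul (s * t)).const_sub
        (s ^ 2 + t ^ 2) |>.sqrt
      rwa [show s ^ 2 + t ^ 2 - s * t * ((1 ^ 2 - 3) / 1) = (s + t) ^ 2 by ring,
        Real.sqrt_sq (by positivity)] at this
    refine tendsto_of_tendsto_of_tendsto_of_le_of_le' k1 tendsto_const_nhds ?_ ?_ <;>
    filter_upwards [hs1 s, hs2 t] with n a b
    all_goals have hr := hρ n
    · have := hX.ce_mono (hc n) (he n) ((c0 n).trans (e0 n).symm) (by positivity) a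
        (by positivity) b
      have pD : 0 < D n := lt_of_lt_of_le (by positivity) a
      have pF : 0 < F n := lt_of_lt_of_le (by positivity) b
      simp only [ce, c1, e1] at this
      rw [← a0, hα.dist_zero self_mem_Ici (by simp [pD.le]) (by positivity),
        div_le_iff₀ (by positivity)] at this
      refine Real.sqrt_le_iff.2 ⟨by positivity, ?_⟩
      rw [div_pow (dist _ _), le_div_iff₀ (by positivity)]
      have e : ((F n / D n) ^ 2 - 3) / (F n / D n) =
          (D n ^ 2 + F n ^ 2 - (2 * D n) ^ 2) / (D n * F n) := by field_simp; ring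
      rw [e]
      nlinarith
    · rw [div_le_iff₀ hr]
      have := dist_triangle_left (c n (s * ρ n)) (e n (t * ρ n)) (y n)
      nth_rw 1 [← c0 n] at this
      rw [← e0 n, (hc n).dist_zero ⟨le_rfl, le_trans (by positivity) a⟩ ⟨by positivity, a⟩
        (by positivity), (he n).dist_zero ⟨le_rfl, le_trans (by positivity) b⟩ ⟨by positivity, b⟩
        (by positivity)] at this
      linarith
  refine ⟨fun n s => if s ≤ 0 then c n (-s * ρ n) else e n (s * ρ n), fun n => by simp [c0],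
    fun s t => ?_, fun s hs => ?_⟩
  · have key : ∀ s t, s ≤ 0 → 0 < t →
        Tendsto (fun n => dist (c n (-s * ρ n)) (e n (t * ρ n)) / ρ n) l (𝓝 |s - t|) := by
      intro s t hs ht
      rcases hs.eq_or_lt with rfl | hs
      · simpa [c0, e0] using same he hs2 0 t le_rfl ht.le
      · rw [abs_of_neg (by linarith), show -(s - t) = -s + t by ring]
        exact mixed _ _ (by linarith) ht
    rcases le_or_gt s 0 with hs | hs <;> rcases le_or_gt t 0 with ht | ht
    · simp only [if_pos hs, if_pos ht]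
      rw [show |s - t| = |-s - -t| by rw [← abs_neg]; congr 1; ring]
      exact same hc hs1 _ _ (by linarith) (by linarith)
    · simpa only [if_pos hs, if_neg ht.not_ge] using key s t hs ht
    · simpa only [if_pos ht, if_neg hs.not_ge, dist_comm, abs_sub_comm] using key t s ht hs
    · simpa only [if_neg hs.not_ge, if_neg ht.not_ge] using same he hs2 _ _ hs.le ht.le
  · filter_upwards [hs1 (-s)] with n a
    exact ⟨c n, hc n, c0 n, c1 n, ⟨mul_nonneg (by linarith) (hρ n).le, a⟩, if_pos hs⟩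

end Vale.Agent.P216K
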