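import Vale.Agent.P216K.Riem
import Vale.Agent.P216K.Stm
import Vale.Agent.P216D.ModE
import Vale.Agent.P216MP.Rank1
import Vale.Agent.P216KV.Fam
import Vale.Agent.P216RG.Rig
import Vale.Agent.P216DC.Resc
import Vale.Agent.P216BF.Scal

/-! # Splittings, the axis given by a line, two orthogonal lines -/

open scoped Manifold ContDiff Topology ENNReal
open Set Filter

set_option maxSynthPendingDepth 3

noncomputable section

namespace Vale.Agent.P216K

open Vale.Agent.P216R Vale.Agent.P216CP Vale.Agent.P216DC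

section ring

open Vale.Agent.P216D

lemma ring_sb {A : Type*} [CommRing A] [Algebra ℝ A] {c : Fr A} {f : A} (hf : c.Inv f)
    (h : ∀ a b, c.D a (c.D b f) = 0) : c.ip c.S f = 0 ∧ c.rip f f = 0 := by
  have h1 := P216MP.ric_grad_eq_zero hf (r := 0) fun a b => by rw [h, map_zero, smul_zero]
  have h2 := fun a => congrArg (c.D a) (h1 a)
  have h3 := c.div_Ric
  simp only [Derivation.leibniz, h, smul_eq_mul, mul_zero, zero_add, map_zero,
    Fin.sum_univ_three, map_add] at h1 h2 h3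
  simp only [Fr.ip, Fr.rip, Fin.sum_univ_three, ← h3]
  exact ⟨by linear_combination h2 0 + h2 1 + h2 2,
    by linear_combination c.D 0 f * h1 0 + c.D 1 f * h1 1 + c.D 2 f * h1 2⟩

variable {M : Type} [TopologicalSpace M] [ChartedSpace E3 M] [IsManifold 𝓘(ℝ, E3) ∞ M]
  {g : Ten E3 M} {U : Set M} {b : M → ℝ} {x : M}

theorem spl_sb (hg : Met g U) (hb : Spl g U b) (hx : x ∈ U) :
    gam g (Sc g) b x = 0 ∧ Ric g x (grad g b x) (grad g b x) = 0 := by
  have h := hg.fam univ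
  have hu : P216ST.SmF E3 (fun _ => b) univ U := smF_const (fun a z hz =>
    (P216KV.cd_rd hg.isOpen hb.smooth hz).contDiffWithinAt) univ
  have h1 := ring_sb (inv_sm h iv_univ x hu) fun a c => Sm.ext fun p => by
    refine (Loc.ev_hess_sc p _ a c).trans ?_
    have hp : Loc.x p ∈ dom E3 x U := Loc.x_mem p
    change P210.R2.H53.hessG (co g x) (rd E3 b x) (Loc.x p) _ _ = 0
    rw [P216KV.hess_rd hg hg.isOpen Subset.rfl hb.smooth hp, comap_apply, hb.hess _ hp.2]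
    rfl
  have hf := on_fr0 h (mem_univ 0) hx
  refine ⟨?_, ?_⟩
  · rw [← fp_ip (h := h) (hI := iv_univ) (hs := mem_univ 0) (hy := hx) (hf := hf) (smF_Sc h) hu,
      ← S_sm, two_mul]
    have h2 := h1.1
    simp only [Fr.ip, map_add, add_mul, Finset.sum_add_distrib] at h2 ⊢
    rw [h2, map_zero, add_zero]
  · rw [← fp_rip (h := h) (hI := iv_univ) (hs := mem_univ 0) (hy := hx) (hf := hf) hu hu, h1.2,
      map_zero]

end ring

variable {M : Type} [TopologicalSpace M] [ChartedSpace E3 M] [IsManifold 𝓘(ℝ, E3) ∞ M]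

section static

variable {g : Ten E3 M} {U : Set M} {b φ : M → ℝ} {γ σ c : ℝ → M} {I : Set ℝ} {t L : ℝ}

lemma geo_deriv (hg : Met g U) (h : IsGeo g U γ I) (hI : IsOpen I) (ht : t ∈ I)
    (hφ : ContMDiffOn 𝓘(ℝ, E3) 𝓘(ℝ, ℝ) ∞ φ U) :
    HasDerivAt (φ ∘ γ) (g (γ t) (grad g φ (γ t)) (vel E3 γ t)) t := by
  rw [hg.grad_apply (h.mem t ht)]
  exact P216BF.hasDerivAt_curve ((hφ.contMDiffAt (hg.isOpen.mem_nhds (h.mem t ht))).mdifferentiableAt
    (by simp)) ((P216SP.geo_c1 h hI ht).mdifferentiableAt (by simp))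

lemma spl_btw (hg : Met g U) (hH : Hs U) (hb : Spl g U b) (H : EIso g U c (Icc 0 L))
    (ht : t ∈ Icc 0 L) : |b (c t) - b (c 0)| ≤ |b (c L) - b (c 0)| := by
  rcases (ht.1.trans ht.2).eq_or_lt with rfl | hL
  · rw [le_antisymm ht.2 ht.1]
  obtain ⟨γ, s, h1, -, h3, h4, h5, -⟩ := H.exists_geo hg hH hL
  have k := fun u (hu : u ∈ Icc 0 L) => P216RG.hess_geo h4 h1 (h3 hu) (u := b)
    ((P216KV.cd_pt hg.isOpen hb.smooth (h4.mem u (h3 hu))).of_le (WithTop.coe_le_coe.2 le_top))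
  have k1 : ∀ u ∈ Icc 0 L, HasDerivAt (deriv (b ∘ γ)) 0 u := fun u hu => by
    have := (k u hu).2.2
    rwa [hb.hess _ (h4.mem u (h3 hu))] at this
  have k2 := constant_of_has_deriv_right_zero
    (fun u hu => (k1 u hu).continuousAt.continuousWithinAt)
    fun u hu => (k1 u (Ico_subset_Icc_self hu)).hasDerivWithinAt
  have k3 : ∀ u ∈ Icc 0 L, HasDerivAt (fun v => (b ∘ γ) v - deriv (b ∘ γ) 0 * v) 0 u :=
    fun u hu => by
      have := (k u hu).1.differentiableAt.hasDerivAt.fun_sub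
        ((hasDerivAt_id' u).const_mul (deriv (b ∘ γ) 0))
      rwa [k2 u hu, mul_one, sub_self] at this
  have k4 := constant_of_has_deriv_right_zero
    (fun u hu => (k3 u hu).continuousAt.continuousWithinAt)
    fun u hu => (k3 u (Ico_subset_Icc_self hu)).hasDerivWithinAt
  have k5 : ∀ u ∈ Icc 0 L, b (c u) - b (c 0) = deriv (b ∘ γ) 0 * u := fun u hu => by
    have := k4 u hu
    simp only [Function.comp, h5 hu, h5 (left_mem_Icc.2 hL.le)] at this ⊢
    linarith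
  rw [k5 t ht, k5 L (right_mem_Icc.2 hL.le), abs_mul, abs_mul, abs_of_nonneg ht.1, abs_of_pos hL]
  exact mul_le_mul_of_nonneg_left ht.2 (abs_nonneg _)

lemma spl_lip (h : MS g U) (hb : Spl g U b) {x y : M} (hx : x ∈ U) (hy : y ∈ U) :
    |b x - b y| ≤ dd g U x y := by
  have := h.met.lip_of_gam (hb.smooth.of_le (by simp)) one_pos
    (fun z hz => by rw [hb.unit z hz, one_pow]) x y
  rw [ENNReal.ofReal_one, one_mul, ed_eq_dd (h.fin x hx y hy), abs_sub_comm] at this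
  exact (ENNReal.ofReal_le_ofReal_iff ENNReal.toReal_nonneg).1 this

lemma line_vel (hg : Met g U) (hH : Hs U) (hb : Spl g U b) (H : EIso g U σ univ) {β : ℝ}
    (he : ∀ s, b (σ s) = β + s) (t : ℝ) : vel E3 σ t = grad g b (σ t) := by
  obtain ⟨h1, h2⟩ := isGeo_of_iso hg hH isOpen_univ H
  have hx := H.mem (mem_univ t)
  have h3 := (geo_deriv hg h1 isOpen_univ (mem_univ t) hb.smooth).unique
    (((hasDerivAt_id' t).const_add β).congr_of_eventuallyEq (.of_forall he))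
  have h4 := P216TP.g_vel_eq (h2 t (mem_univ t))
  have h5 := hb.unit _ hx
  rw [hg.gam_eq hx] at h5
  by_contra hn
  have := hg.pos _ hx _ (sub_ne_zero.2 hn)
  simp only [map_sub, sub_apply, hg.symm _ hx (vel E3 σ t) (grad g b (σ t)),
    h3, h4, h5] at this
  linarith

lemma line_sc (hg : Met g U) (hH : Hs U) (hb : Spl g U b) (H : EIso g U σ univ) {β : ℝ}
    (he : ∀ s, b (σ s) = β + s) (t : ℝ) : Sc g (σ t) = Sc g (σ 0) := by
  have k : ∀ s, HasDerivAt (Sc g ∘ σ) 0 s := fun s => by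
    have := geo_deriv hg (isGeo_of_iso hg hH isOpen_univ H).1 isOpen_univ (mem_univ s)
      (P216BF.sc_smooth hg)
    rwa [line_vel hg hH hb H he, ← hg.gam_eq (H.mem (mem_univ s)),
      (spl_sb hg hb (H.mem (mem_univ s))).1] at this
  exact is_const_of_deriv_eq_zero (fun s => (k s).differentiableAt) (fun s => (k s).deriv) t 0

lemma exists_spl (h : MS g U) (hc : Cpl g U) (h0 : ∀ y ∈ U, SecGe g y 0) (H : EIso g U σ univ) :
    ∃ b, Spl g U b ∧ (∀ t, b (σ t) = 0 + t) ∧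
      ∀ x ∈ U, ∀ t, dd g U x (σ t) ^ 2 = t ^ 2 - 2 * t * b x + dd g U x (σ 0) ^ 2 := by
  obtain ⟨b, h1, h2, h3, h4, h5⟩ := split E3 M g U σ h.met h.hs h.isPreconnected hc h0
    fun s t => H s trivial t trivial
  exact ⟨b, ⟨h1, h2, h3⟩, fun t => by rw [h4, zero_add], h5⟩

theorem two_lines (h : MS g U) (hc : Cpl g U) (h0 : ∀ y ∈ U, SecGe g y 0) (H : EIso g U σ univ)
    (H' : EIso g U c univ) (he : c 0 = σ 0)
    (ho : ∀ s ≤ 0, ∀ t, dd g U (c s) (σ t) ^ 2 = s ^ 2 + t ^ 2) : Sc g (σ 0) = 0 := by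
  obtain ⟨b, h1, -, h3⟩ := exists_spl h hc h0 H
  obtain ⟨b', k1, k2, -⟩ := exists_spl h hc h0 H'
  have hg := h.met
  have hx := H.mem (mem_univ 0)
  have h4 : ∀ s ∈ Iic (0 : ℝ), (b ∘ c) s = 0 := fun s hs => by
    have := h3 _ (H'.mem (mem_univ s)) 1
    rw [ho s hs, ho s hs] at this
    change b (c s) = 0
    linarith
  have h5 := (uniqueDiffWithinAt_Iic 0).eq_deriv _ (geo_deriv hg
    (isGeo_of_iso hg h.hs isOpen_univ H').1 isOpen_univ (mem_univ 0) h1.smooth).hasDerivWithinAt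
    ((hasDerivWithinAt_const 0 _ 0).congr h4 (h4 0 self_mem_Iic))
  rw [line_vel hg h.hs k1 H' k2, he] at h5
  obtain ⟨e, h6, h7, h8⟩ := (P216BF.met_pd hg hx).onb_pair (ι := Fin 3) (by simp)
    ((hg.gam_eq hx b b).symm.trans (h1.unit _ hx)) ((hg.gam_eq hx b' b').symm.trans (k1.unit _ hx))
    h5 (i := 0) (j := 1) (by decide)
  have h9 := P216BF.sc_eq hg hx h6
  rw [Fin.sum_univ_three, h7, h8, (spl_sb hg h1 hx).2, (spl_sb hg k1 hx).2] at h9
  have h10 := P216BF.ricLe_sc3 P216BF.finrank_E3 hg hx (κ := 0) (by simpa using h0 _ hx) (e 2)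
  have h11 := P216BF.sc_ge3 P216BF.finrank_E3 hg hx (h0 _ hx)
  rw [h6.self] at h10
  linarith

end static

variable {g : ℝ → Ten E3 M} {U : Set M} {σ : ℝ → M} {b : M → ℝ} {q x y : M}

lemma anc_ms (h : Anc g U) {t : ℝ} (ht : t ≤ 0) : MS (g t) U := (h.met ht).ms h.hs h.conn

omit [IsManifold 𝓘(ℝ, E3) ∞ M] in
lemma axis_const (hq : q ∈ U) : Axis g U (fun _ => q) fun _ => 0 where
  mem _ := hq
  base := rfl
  min _ _ _ := le_rfl
  le _ _ _ := le_add_of_nonneg_right (abs_nonneg _)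
  tr y hy _ _ := ⟨y, hy, rfl, rfl, rfl⟩
  lip _ _ _ _ _ _ := by rw [sub_self, abs_zero]; exact ENNReal.toReal_nonneg
  btw _ _ _ _ _ _ _ := le_rfl

/-- there are parallel lines through all points -/
def Prl (g : Ten E3 M) (U : Set M) (b : M → ℝ) : Prop :=
  ∀ y ∈ U, ∃ τ : ℝ → M, τ 0 = y ∧ EIso g U τ univ ∧
    ∀ x ∈ U, ∀ t, dd g U x (τ t) ^ 2 = t ^ 2 - 2 * t * (b x - b y) + dd g U x y ^ 2

theorem axis_line (hS : S2) (h : Anc g U) (H : EIso (g 0) U σ univ) :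
    ∃ b, Axis g U σ b ∧ Prl (g 0) U b := by
  have hm := anc_ms h le_rfl
  obtain ⟨b, h1, h2, h3⟩ := exists_spl hm (h.cpl 0 le_rfl) (h.sec 0 le_rfl) H
  have hσ := fun s => H.mem (mem_univ s)
  let o := Sp.mk hm _ (hσ 0)
  have hX := nn_sp hm (h.cpl 0 le_rfl) (h.sec 0 le_rfl)
  have := Sp.proper hm (h.cpl 0 le_rfl)
  have hB : Bus (fun s => up o (σ s)) fun p => b p.val := fun p t => by
    simp only [Sp.dist_eq, up_val o (hσ _)]
    exact h3 _ p.prop t
  have hP := fun y (hy : y ∈ U) => hB.exists_par hX (Sp.mk hm y hy)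
  refine ⟨b, ⟨hσ, by rw [h2, add_zero], fun x hx s => ?_, fun x hx s => ?_, fun y hy z _ => ?_,
    fun t ht x hx y hy => spl_lip (anc_ms h ht) (hS M g U b h h1 t ht) hx hy,
    fun t ht c L s hc hs => spl_btw (h.met ht) h.hs (hS M g U b h h1 t ht) hc hs⟩, fun y hy => ?_⟩
  · simpa only [Sp.dist_eq, up_val o (hσ _), Sp.val_mk, dl] using hB.ax.min (Sp.mk hm x hx) s
  · simpa only [Sp.dist_eq, up_val o (hσ _), Sp.val_mk, dl] using hB.ax.le (Sp.mk hm x hx) s
  · obtain ⟨τ, k1, k2, k3⟩ := hP y hy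
    have k4 := hB.par_dist (H.iso o) k2 (by rwa [k1])
    simp only [k1, Sp.dist_eq, up_val o (hσ _), Sp.val_mk] at k4
    refine ⟨_, (τ (b z - b y)).prop, by rw [(k4 _).1]; ring, (k4 _).2, ?_⟩
    rw [line_sc hm.met h.hs h1 k2.eIso (fun s => (k4 s).1), k1, Sp.val_mk]
  · obtain ⟨τ, k1, k2, k3⟩ := hP y hy
    refine ⟨fun s => (τ s).val, by simp only [k1, Sp.val_mk], k2.eIso, fun x hx t => ?_⟩
    simpa only [Sp.dist_eq, k1, Sp.val_mk] using k3 (Sp.mk hm x hx) t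

end Vale.Agent.P216K
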